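import Vale.Agent.P204.CV.X1

set_option linter.all false

/-! P204, cones: finite dimensionality of the cohomology in the abstract smoothing system, the
anti-invariant functional for an arbitrary space of classes, the light cone lemma on the
orthogonal complement of the closed anti-invariant forms. -/

open Filter Topology Finset
open scoped InnerProductSpace BigOperators

namespace P204.GX.SmSys

variable {H Om : Type} [NormedAddCommGroup H] [InnerProductSpace ℝ H] [CompleteSpace H]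
  [AddCommGroup Om] [Module ℝ Om]

variable (Y : SmSys H Om)

/-- the pairing -/
noncomputable def pr (a b : Om) : ℝ := ⟪Y.ι a, Y.st (Y.ι b)⟫_ℝ

theorem pr_symm (a b : Om) : Y.pr a b = Y.pr b a := Y.pr_comm _ _

theorem pr_add (a b c : Om) : Y.pr (a + b) c = Y.pr a c + Y.pr b c := by
  simp only [pr, map_add, inner_add_left]

theorem pr_sub (a b c : Om) : Y.pr (a - b) c = Y.pr a c - Y.pr b c := by
  simp only [pr, map_sub, inner_sub_left]

theorem pr_smul (r : ℝ) (a c : Om) : Y.pr (r • a) c = r * Y.pr a c := by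
  simp only [pr, map_smul, real_inner_smul_left]

theorem pr_add' (a b c : Om) : Y.pr c (a + b) = Y.pr c a + Y.pr c b := by
  rw [pr_symm, pr_add, pr_symm Y a, pr_symm Y b]

theorem pr_sub' (a b c : Om) : Y.pr c (a - b) = Y.pr c a - Y.pr c b := by
  rw [pr_symm, pr_sub, pr_symm Y a, pr_symm Y b]

theorem pr_smul' (r : ℝ) (a c : Om) : Y.pr c (r • a) = r * Y.pr c a := by
  rw [pr_symm, pr_smul, pr_symm Y a]

/-- the pairing with a fixed form as a linear map -/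
noncomputable def prL (c : Om) : Om →ₗ[ℝ] ℝ where
  toFun b := Y.pr b c
  map_add' a b := Y.pr_add a b c
  map_smul' r a := Y.pr_smul r a c

theorem pr_sum {κ : Type*} (s : Finset κ) (a : κ → Om) (c : Om) :
    Y.pr (∑ i ∈ s, a i) c = ∑ i ∈ s, Y.pr (a i) c := map_sum (Y.prL c) a s

/-- finitely many closed forms detect the null forms -/
def FD : Prop := ∃ (m : ℕ) (e : Fin m → Om), (∀ i, e i ∈ Y.Cl) ∧
  ∀ c ∈ Y.Cl, (∀ i, Y.pr c (e i) = 0) → c ∈ Y.Nul

theorem fd_of_compact {δ : ℝ} (h0 : 0 < δ) (h1 : δ ≤ Y.δ0)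
    (hE : ∀ b ∈ Y.Cl, b - Y.S δ (Y.ι b) ∈ Y.Ex)
    (hK : TotallyBounded ((fun u => Y.ι (Y.S δ u)) '' Metric.closedBall (0 : H) 1)) : Y.FD := by
  classical
  have : CompleteSpace Y.Nw := Y.isClosed_Nw.completeSpace_coe
  set L : H →L[ℝ] H := (Y.ι ∘ₗ Y.S δ).mkContinuous (Y.K 0) (fun u => Y.S_norm δ u h0 h1) with hL
  have hLa : ∀ u, L u = Y.ι (Y.S δ u) := fun u => rfl
  set P : H →L[ℝ] H := ContinuousLinearMap.id ℝ H - Y.Nw.starProjection with hP
  have hPa : ∀ u, P u = u - Y.Nw.starProjection u := fun u => rfl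
  have hPN : ∀ u ∈ Y.Nw, P u = 0 := by
    intro u hu
    rw [hPa, Submodule.starProjection_eq_self_iff.2 hu, sub_self]
  have hPker : ∀ u, P u = 0 → u ∈ Y.Nw := by
    intro u hu
    rw [hPa, sub_eq_zero] at hu
    rw [hu]
    exact Submodule.starProjection_apply_mem _ _
  have hhom : ∀ u ∈ Y.Zw, u - L u ∈ Y.Nw := by
    intro u hu
    have hcl : IsClosed {x : H | x - L x ∈ Y.Nw} :=
      Y.isClosed_Nw.preimage (continuous_id.sub L.continuous)
    have hsub : Y.ι '' (Y.Cl : Set Om) ⊆ {x : H | x - L x ∈ Y.Nw} := by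
      rintro _ ⟨c, hc, rfl⟩
      change Y.ι c - L (Y.ι c) ∈ Y.Nw
      rw [hLa, ← map_sub]
      exact fun c' hc' => Y.stokes _ (hE c hc) c' hc'
    exact closure_minimal hsub hcl (Y.Zw_le_closure hu)
  -- the map to the harmonic space
  set q : Y.Cl →ₗ[ℝ] H := (P : H →ₗ[ℝ] H) ∘ₗ Y.ι ∘ₗ Y.Cl.subtype with hq
  have hqa : ∀ c : Y.Cl, q c = P (Y.ι c) := fun c => rfl
  set W : Submodule ℝ H := LinearMap.range q with hW
  have hWZ : ∀ u ∈ W, u ∈ Y.Zw ∧ P u = u := by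
    rintro _ ⟨c, rfl⟩
    rw [hqa]
    have h2 : Y.Nw.starProjection (Y.ι c) ∈ Y.Nw := Submodule.starProjection_apply_mem _ _
    refine ⟨?_, ?_⟩
    · rw [hPa]
      exact sub_mem (Y.ι_mem_Zw c.2) (Y.Nw_le_Zw h2)
    · conv_lhs => rw [hPa (Y.ι c), map_sub, hPN _ h2, sub_zero]
  have hfin : FiniteDimensional ℝ W := by
    refine FiniteDimensional.of_totallyBounded_nhds_zero ℝ
      (U := Metric.closedBall (0 : W) 1) (Metric.closedBall_mem_nhds _ one_pos) ?_
    have h2 : TotallyBounded (P '' ((fun u => Y.ι (Y.S δ u)) '' Metric.closedBall (0 : H) 1)) :=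
      hK.image P.uniformContinuous
    refine (totallyBounded_preimage (f := (Subtype.val : W → H))
      isUniformEmbedding_subtype_val.isUniformInducing h2).subset ?_
    intro u hu
    obtain ⟨h3, h4⟩ := hWZ u u.2
    refine ⟨_, ⟨(u : H), ?_, rfl⟩, ?_⟩
    · simpa using hu
    · have h5 := hPN _ (hhom _ h3)
      rw [map_sub, h4, sub_eq_zero, hLa] at h5
      exact h5.symm
  let b := Module.finBasis ℝ W
  have hex : ∀ i, ∃ c : Y.Cl, q c = (b i : H) := fun i => (b i).2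
  choose e he using hex
  refine ⟨_, fun i => (e i : Om), fun i => (e i).2, fun c hc hce => ⟨hc, fun c' hc' => ?_⟩⟩
  set u : W := ⟨q ⟨c', hc'⟩, ⟨_, rfl⟩⟩ with hu
  have h2 : q (⟨c', hc'⟩ - ∑ i, b.repr u i • e i) = 0 := by
    rw [map_sub, map_sum]
    simp only [map_smul, he]
    have h3 := congrArg (Subtype.val : W → H) (b.sum_repr u)
    rw [Submodule.coe_sum] at h3
    simp only [Submodule.coe_smul] at h3
    rw [h3]
    exact sub_self _
  have h3 := hPker _ h2 c hc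
  change Y.pr ((⟨c', hc'⟩ - ∑ i, b.repr u i • e i : Y.Cl) : Om) c = 0 at h3
  rw [Submodule.coe_sub, Submodule.coe_sum, pr_sub, pr_sum] at h3
  simp only [Submodule.coe_smul, pr_smul] at h3
  have h4 : ∀ i, Y.pr (e i : Om) c = 0 := fun i => by rw [pr_symm]; exact hce i
  simp only [h4, mul_zero, sum_const_zero, sub_zero] at h3
  change Y.pr c c' = 0
  rw [pr_symm]
  exact h3

/-- the square of a weakly closed form is bounded by finitely many pairings -/
theorem FD.square (h : Y.FD) : ∃ (m : ℕ) (E : Fin m → Om), ∀ z ∈ Y.Zw,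
    ⟪z, Y.st z⟫_ℝ ≤ ∑ j, ⟪z, Y.st (Y.ι (E j))⟫_ℝ ^ 2 := by
  classical
  obtain ⟨m, e, he, hd⟩ := h
  set f : Y.Cl →ₗ[ℝ] (Fin m → ℝ) :=
    LinearMap.pi fun i => (Y.prL (e i)) ∘ₗ Y.Cl.subtype with hf
  have hfa : ∀ (c : Y.Cl) i, f c i = Y.pr c (e i) := fun c i => rfl
  obtain ⟨r, hr⟩ := f.rangeRestrict.exists_rightInverse_of_surjective (LinearMap.range_rangeRestrict f)
  obtain ⟨p, hp⟩ := LinearMap.exists_extend (p := LinearMap.range f) r
  have hfp : ∀ c : Y.Cl, f (p (f c)) = f c := by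
    intro c
    have h1 : p (f c) = r (f.rangeRestrict c) := LinearMap.congr_fun hp (f.rangeRestrict c)
    have h2 : f.rangeRestrict (r (f.rangeRestrict c)) = f.rangeRestrict c :=
      LinearMap.congr_fun hr _
    rw [h1]
    exact congrArg Subtype.val h2
  set e' : Fin m → Om := fun i => (p (Pi.single i 1) : Om) with he'
  have key : ∀ c ∈ Y.Cl, Y.pr c c ≤ ∑ i, Y.pr c (e i) ^ 2 + ∑ i, Y.pr c (e' i) ^ 2 := by
    intro c hc
    have h1 : c - (p (f ⟨c, hc⟩) : Om) ∈ Y.Nul := by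
      refine hd _ (sub_mem hc (p _).2) fun i => ?_
      rw [pr_sub, ← hfa (p _) i, hfp, hfa, sub_self]
    have h2 : Y.pr (c - (p (f ⟨c, hc⟩) : Om)) c = 0 := h1.2 c hc
    have h3 : (p (f ⟨c, hc⟩) : Om) = ∑ i, Y.pr c (e i) • e' i := by
      have h4 : f ⟨c, hc⟩ = ∑ i, Y.pr c (e i) • (Pi.single i 1 : Fin m → ℝ) := by
        ext j
        simp [hfa, Pi.single_apply]
      rw [h4, map_sum, Submodule.coe_sum]
      simp only [map_smul, Submodule.coe_smul, he']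
    rw [pr_sub, h3, pr_sum, sub_eq_zero] at h2
    rw [h2, ← sum_add_distrib]
    refine sum_le_sum fun i _ => ?_
    rw [pr_smul, pr_symm Y (e' i)]
    nlinarith [sq_nonneg (Y.pr c (e i) - Y.pr c (e' i)), sq_nonneg (Y.pr c (e i)),
      sq_nonneg (Y.pr c (e' i))]
  refine ⟨m + m, Fin.append e e', fun z hz => ?_⟩
  have hc : IsClosed {z : H | ⟪z, Y.st z⟫_ℝ ≤
      ∑ j, ⟪z, Y.st (Y.ι (Fin.append e e' j))⟫_ℝ ^ 2} :=
    isClosed_le (continuous_id.inner Y.st.continuous)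
      (continuous_finset_sum _ fun j _ => (continuous_id.inner continuous_const).pow 2)
  refine closure_minimal ?_ hc (Y.Zw_le_closure hz)
  rintro _ ⟨c, hc, rfl⟩
  change Y.pr c c ≤ ∑ j, Y.pr c (Fin.append e e' j) ^ 2
  rw [Fin.sum_univ_add]
  simp only [Fin.append_left, Fin.append_right]
  exact key c hc

theorem abs_pr_le (a b : Om) : |Y.pr a b| ≤ Y.K 0 * Y.K 0 * ‖Y.ι b‖ * Y.M 0 a := by
  have h1 := Y.abs_rep_le (Y.ι a) (Y.ι b)
  have h2 := Y.norm_le_M a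
  calc |Y.pr a b| ≤ ‖Y.ι a‖ * ‖Y.ι b‖ := h1
    _ ≤ (Y.K 0 * Y.K 0 * Y.M 0 a) * ‖Y.ι b‖ := by gcongr
    _ = _ := by ring

theorem M_mono0 (k : ℕ) (b : Om) : Y.M 0 b ≤ Y.M k b := by
  induction k with
  | zero => exact le_rfl
  | succ k ih => exact ih.trans (Y.M_succ k b)

/-- the anti-invariant functional which closes `T` on a space `N` of closed forms -/
theorem FD.exists_phi (h : Y.FD) (N : Submodule ℝ Om) (hN : Y.Nul ≤ N)
    (hN' : N ≤ Y.Cl) (T : Om →ₗ[ℝ] ℝ) (CT : ℝ) (hT : ∀ b, |T b| ≤ CT * Y.M 0 b)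
    (hT'' : ∀ c ∈ N, Y.pm c = 0 → T c = 0) :
    ∃ (φ : Om →ₗ[ℝ] ℝ) (k : ℕ) (C : ℝ), 0 ≤ C ∧ (∀ b, φ (Y.pm b) = φ b) ∧
      (∀ b, |φ b| ≤ C * Y.M k b) ∧ ∀ c ∈ N, T c + φ c = 0 := by
  classical
  obtain ⟨m, e, he, hd⟩ := h
  set cl : Om →ₗ[ℝ] (Fin m → ℝ) := LinearMap.pi fun i => Y.prL (e i) with hcl
  have hcla : ∀ c i, cl c i = Y.pr c (e i) := fun c i => rfl
  set I : Submodule ℝ Om := Y.Cl ⊓ LinearMap.ker Y.pm with hI
  set f : (I × N) →ₗ[ℝ] (Fin m → ℝ) := cl ∘ₗ (I.subtype.coprod N.subtype) with hf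
  set g : (I × N) →ₗ[ℝ] ℝ := T ∘ₗ I.subtype ∘ₗ LinearMap.fst ℝ I N with hg
  have hker : g ∈ (LinearMap.ker f).dualAnnihilator := by
    rw [Submodule.mem_dualAnnihilator]
    rintro ⟨i, n⟩ hin
    have h1 : cl ((i : Om) + (n : Om)) = 0 := hin
    have h2 : (i : Om) + (n : Om) ∈ Y.Nul :=
      hd _ (add_mem i.2.1 (hN' n.2)) fun j => by rw [← hcla, h1]; rfl
    have h3 : (i : Om) ∈ N := by
      have := sub_mem (hN h2) n.2
      rwa [add_sub_cancel_right] at this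
    exact hT'' _ h3 i.2.2
  rw [← LinearMap.range_dualMap_eq_dualAnnihilator_ker] at hker
  obtain ⟨lam, hlam⟩ := hker
  have hlam' : ∀ (i : I) (n : N), lam (cl ((i : Om) + (n : Om))) = T i := fun i n =>
    LinearMap.congr_fun hlam (i, n)
  set T1 : Om →ₗ[ℝ] ℝ := T - lam ∘ₗ cl with hT1
  have hT1a : ∀ b, T1 b = T b - lam (cl b) := fun b => rfl
  set A : ℝ := ∑ i, |lam (Pi.single i 1)| * (Y.K 0 * Y.K 0 * ‖Y.ι (e i)‖) with hA
  have hK0 : 0 ≤ Y.K 0 := zero_le_one.trans (Y.one_le_K 0)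
  have hA0 : 0 ≤ A := sum_nonneg fun i _ => by positivity
  have hlb : ∀ b, |lam (cl b)| ≤ A * Y.M 0 b := by
    intro b
    have h4 : cl b = ∑ i, Y.pr b (e i) • (Pi.single i 1 : Fin m → ℝ) := by
      ext j
      simp [hcla, Pi.single_apply]
    rw [h4, map_sum, hA, sum_mul]
    refine (abs_sum_le_sum_abs _ _).trans (sum_le_sum fun i _ => ?_)
    rw [map_smul, smul_eq_mul, abs_mul]
    have h5 := Y.abs_pr_le b (e i)
    calc |Y.pr b (e i)| * |lam (Pi.single i 1)|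
        ≤ (Y.K 0 * Y.K 0 * ‖Y.ι (e i)‖ * Y.M 0 b) * |lam (Pi.single i 1)| := by gcongr
      _ = _ := by ring
  set C1 : ℝ := |CT| + A with hC1
  have hC10 : 0 ≤ C1 := by positivity
  have hT1b : ∀ b, |T1 b| ≤ C1 * Y.M 0 b := by
    intro b
    rw [hT1a]
    have h1 := hT b
    have h2 := hlb b
    have h3 : CT * Y.M 0 b ≤ |CT| * Y.M 0 b :=
      mul_le_mul_of_nonneg_right (le_abs_self _) (Y.M_nonneg 0 b)
    have h4 := abs_sub (T b) (lam (cl b))
    rw [hC1]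
    linarith
  have hT1p : ∀ b, |T1 (Y.pm b)| ≤ C1 * Y.K 0 * Y.M 0 b := by
    intro b
    have h1 := Y.M_pm 0 b
    calc |T1 (Y.pm b)| ≤ C1 * Y.M 0 (Y.pm b) := hT1b _
      _ ≤ C1 * (Y.K 0 * Y.M 0 b) := by gcongr
      _ = _ := by ring
  obtain ⟨φ, k, C, hC, h1, h2, h3⟩ := Y.exists_phi (T1 - T1 ∘ₗ Y.pm) (C1 + C1 * Y.K 0)
    (fun b => by
      have h4 := abs_sub (T1 b) (T1 (Y.pm b))
      have h5 := hT1b b
      have h6 := hT1p b
      change |T1 b - T1 (Y.pm b)| ≤ _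
      linarith)
    (fun b => by
      change T1 (Y.pm b) - T1 (Y.pm (Y.pm b)) = 0
      rw [pm_pm, sub_self])
    (fun c hc hp => by
      change T1 c - T1 (Y.pm c) = 0
      have h4 := hlam' ⟨c, hc, hp⟩ 0
      simp only [ZeroMemClass.coe_zero, add_zero] at h4
      rw [hp, map_zero, sub_zero, hT1a, h4, sub_self])
  refine ⟨φ - T1 ∘ₗ Y.pm, k, C + C1 * Y.K 0, by positivity, fun b => ?_, fun b => ?_,
    fun c hc => ?_⟩
  · change φ (Y.pm b) - T1 (Y.pm (Y.pm b)) = φ b - T1 (Y.pm b)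
    rw [h1, pm_pm]
  · change |φ b - T1 (Y.pm b)| ≤ _
    have h4 := abs_sub (φ b) (T1 (Y.pm b))
    have h5 := h2 b
    have h6 := hT1p b
    have h7 : C1 * Y.K 0 * Y.M 0 b ≤ C1 * Y.K 0 * Y.M k b :=
      mul_le_mul_of_nonneg_left (Y.M_mono0 k b) (by positivity)
    linarith
  · have h4 := h3 c (hN' hc)
    change T1 c - T1 (Y.pm c) + φ c = 0 at h4
    change T c + (φ c - T1 (Y.pm c)) = 0
    have h5 := hlam' 0 ⟨c, hc⟩
    simp only [ZeroMemClass.coe_zero, zero_add, map_zero] at h5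
    rw [hT1a c, h5] at h4
    linarith

/-! ### closed anti-invariant forms -/

theorem pr_anti {a : Om} (ha : Y.pm a = a) (b : Om) : Y.pr b a = ⟪Y.ι b, Y.ι a⟫_ℝ := by
  rw [pr, ← ha, ← Y.pmH_ι, Y.st_pmH]

theorem pr_inv_anti {w a : Om} (hw : Y.pm w = 0) (ha : Y.pm a = a) : Y.pr w a = 0 := by
  rw [Y.pr_anti ha, ← ha, ← Y.pmH_ι, ← Y.pmH_symm, Y.pmH_ι, hw, map_zero, inner_zero_left]

/-- orthogonal projection to a finite dimensional space of anti-invariant forms -/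
theorem exists_proj {m : ℕ} (a : Fin m → Om) (ha : ∀ i, Y.pm (a i) = a i) (c : Om) :
    ∃ s : Fin m → ℝ, ∀ i, Y.pr (c - ∑ j, s j • a j) (a i) = 0 := by
  set V : Submodule ℝ H := Submodule.span ℝ (Set.range fun i => Y.ι (a i)) with hV
  have : FiniteDimensional ℝ V := FiniteDimensional.span_of_finite ℝ (Set.finite_range _)
  have h1 : V.starProjection (Y.ι c) ∈ V := Submodule.starProjection_apply_mem _ _
  obtain ⟨s, hs⟩ := (Submodule.mem_span_range_iff_exists_fun ℝ).1 h1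
  refine ⟨s, fun i => ?_⟩
  have h2 : Y.ι c - V.starProjection (Y.ι c) ∈ Vᗮ := Submodule.sub_starProjection_mem_orthogonal _
  have h3 := (Submodule.mem_orthogonal' _ _).1 h2 (Y.ι (a i)) (Submodule.subset_span ⟨i, rfl⟩)
  rw [Y.pr_anti (ha i), map_sub, map_sum]
  simp only [map_smul]
  rw [hs]
  exact h3

/-- If `b⁺ ≤ m + 1` and there are `m` independent closed anti-invariant forms, a closed form
orthogonal to them and to a closed form of positive square orthogonal to them has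
nonpositive square. -/
theorem neg_of_index {m : ℕ} {a : Fin m → Om} (ha : ∀ i, Y.pm (a i) = a i)
    (hac : ∀ i, a i ∈ Y.Cl) (hli : LinearIndependent ℝ a)
    (hb : ∀ c : Fin (m + 2) → Om, (∀ i, c i ∈ Y.Cl) →
      ¬ ∀ s : Fin (m + 2) → ℝ, s ≠ 0 → 0 < Y.pr (∑ i, s i • c i) (∑ i, s i • c i))
    {w x : Om} (hw : w ∈ Y.Cl) (hx : x ∈ Y.Cl) (hww : 0 < Y.pr w w) (hxw : Y.pr x w = 0)
    (hwa : ∀ i, Y.pr w (a i) = 0) (hxa : ∀ i, Y.pr x (a i) = 0) : Y.pr x x ≤ 0 := by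
  by_contra hcon
  push Not at hcon
  refine hb (Fin.cons w (Fin.cons x a)) (fun i => ?_) fun s hs => ?_
  · refine Fin.cases hw (fun j => ?_) i
    exact Fin.cases hx (fun l => hac l) j
  · rw [Fin.sum_univ_succ, Fin.sum_univ_succ]
    simp only [Fin.cons_zero, Fin.cons_succ]
    set u : Om := ∑ i : Fin m, s i.succ.succ • a i with hu
    have hup : Y.pm u = u := by
      rw [hu, map_sum]
      simp only [map_smul, ha]
    have hwu : Y.pr u w = 0 := by
      rw [hu, pr_sum]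
      exact sum_eq_zero fun i _ => by rw [pr_smul, pr_symm, hwa, mul_zero]
    have hxu : Y.pr u x = 0 := by
      rw [hu, pr_sum]
      exact sum_eq_zero fun i _ => by rw [pr_smul, pr_symm, hxa, mul_zero]
    have huu : Y.pr u u = ‖Y.ι u‖ ^ 2 := by rw [Y.pr_anti hup, real_inner_self_eq_norm_sq]
    have e : Y.pr (s 0 • w + (s (Fin.succ 0) • x + u)) (s 0 • w + (s (Fin.succ 0) • x + u)) =
        s 0 ^ 2 * Y.pr w w + s (Fin.succ 0) ^ 2 * Y.pr x x + ‖Y.ι u‖ ^ 2 := by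
      simp only [pr_add, pr_add', pr_smul, pr_smul']
      rw [pr_symm Y w x, pr_symm Y w u, pr_symm Y x u, hxw, hwu, hxu, huu]
      ring
    rw [e]
    have p1 : 0 ≤ s 0 ^ 2 * Y.pr w w := by positivity
    have p2 : 0 ≤ s (Fin.succ 0) ^ 2 * Y.pr x x := by positivity
    have p3 : 0 ≤ ‖Y.ι u‖ ^ 2 := by positivity
    by_contra hle
    push Not at hle
    have q1 : s 0 = 0 := by
      have : s 0 ^ 2 * Y.pr w w = 0 := by linarith
      exact (pow_eq_zero_iff two_ne_zero).1 ((mul_eq_zero.1 this).resolve_right hww.ne')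
    have q2 : s (Fin.succ 0) = 0 := by
      have : s (Fin.succ 0) ^ 2 * Y.pr x x = 0 := by linarith
      exact (pow_eq_zero_iff two_ne_zero).1 ((mul_eq_zero.1 this).resolve_right hcon.ne')
    have q3 : u = 0 := by
      have : ‖Y.ι u‖ ^ 2 = 0 := by linarith
      have h1 : Y.ι u = 0 := norm_eq_zero.1 ((pow_eq_zero_iff two_ne_zero).1 this)
      exact Y.ι_inj (by rw [h1, map_zero])
    have q4 := Fintype.linearIndependent_iff.1 hli (fun i => s i.succ.succ) q3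
    apply hs
    funext i
    refine Fin.cases q1 (fun j => ?_) i
    exact Fin.cases q2 (fun l => q4 l) j

/-- the light cone lemma on the orthogonal complement -/
theorem light_of_index {m : ℕ} {a : Fin m → Om} (ha : ∀ i, Y.pm (a i) = a i)
    (hac : ∀ i, a i ∈ Y.Cl) (hli : LinearIndependent ℝ a)
    (hb : ∀ c : Fin (m + 2) → Om, (∀ i, c i ∈ Y.Cl) →
      ¬ ∀ s : Fin (m + 2) → ℝ, s ≠ 0 → 0 < Y.pr (∑ i, s i • c i) (∑ i, s i • c i))
    {w e c : Om} (hw : w ∈ Y.Cl) (he : e ∈ Y.Cl) (hc : c ∈ Y.Cl) (hww : 0 < Y.pr w w)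
    (hwa : ∀ i, Y.pr w (a i) = 0) (hea : ∀ i, Y.pr e (a i) = 0) (hca : ∀ i, Y.pr c (a i) = 0)
    (e1 : 0 < Y.pr e e) (e2 : 0 < Y.pr e w) (c1 : 0 ≤ Y.pr c c) (c2 : 0 < Y.pr c w) :
    0 ≤ Y.pr e c := by
  have h1 := Y.neg_of_index ha hac hli hb (x := Y.pr e w • c - Y.pr c w • e) hw
    (sub_mem (Submodule.smul_mem _ _ hc) (Submodule.smul_mem _ _ he)) hww
    (by rw [pr_sub, pr_smul, pr_smul]; ring) hwa
    (fun i => by rw [pr_sub, pr_smul, pr_smul, hea, hca]; ring)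
  simp only [pr_sub, pr_sub', pr_smul, pr_smul'] at h1
  rw [pr_symm Y c e] at h1
  generalize Y.pr c w = B at *
  generalize Y.pr c c = C at *
  generalize Y.pr e w = E at *
  generalize Y.pr e e = F at *
  generalize Y.pr e c = G at *
  by_contra hG
  push Not at hG
  have h5 : 0 ≤ E ^ 2 * C := by positivity
  have h6 : 0 < B ^ 2 * F := by positivity
  have h7 : 0 < 2 * E * B * (-G) := by
    have : 0 < -G := by linarith
    positivity
  nlinarith

end P204.GX.SmSys
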