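import Vale.Agent.N204.Energy
import Vale.Agent.P204.CV.G

set_option linter.all false

/-! P204, cones: the class of a taming form which dominates a compatible form in the pairing with
taming forms contains a compatible form (after `P204/CV/G.lean`). -/

open MeasureTheory Set Filter Topology
open scoped ContDiff InnerProductSpace

namespace Vale.Agent.P204.GX
open Vale.Agent.P204.T4 _root_.P204.GX

namespace CM
variable {X : Type} [MetricSpace X] [CompactSpace X] [MeasurableSpace X] [BorelSpace X]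

/-- the class theorem for a smoothing system -/
theorem class_of_dual [Nonempty X] (M : CM X) (Z : FnSys X) (hμ : Z.μ = M.mu)
    (hOm : ∀ u : X → L2, u ∈ Z.Om ↔ u ∈ M.Om)
    (hCl : ∀ b : Z.Om, b ∈ Z.Y.Cl ↔ ∀ a, Closed (M.cf a (b : X → L2)))
    (hEx : ∀ b : Z.Om, b ∈ Z.Y.Ex ↔ ∃ e ∈ M.Ex, (e : X → L2) = (b : X → L2))
    (hN : ∀ m, ∃ K : ℝ, 0 ≤ K ∧ ∀ δ (b : Z.Om), 0 < δ → δ ≤ 1 →
      Z.Y.N m δ b ≤ K * M.NN m δ (b : X → L2)) (hPG : HasPG Z) (hFD : Z.Y.FD)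
    (τ : Z.Om) (hτ : τ ∈ Z.Y.Cl) (hτp : ∀ x, PosDef J0 (pP J0 ((τ : X → L2) x)))
    (w0 : Z.Om) (hw0c : w0 ∈ Z.Y.Cl) (hw0p : ∀ x, PosDef J0 ((w0 : X → L2) x))
    (hdual : ∀ σ ∈ Z.Y.Cl, (∀ x, PosDef J0 (pP J0 ((σ : X → L2) x))) →
      Z.Y.pr w0 σ ≤ Z.Y.pr τ σ) :
    ∃ w ∈ Z.Y.Cl, (∀ x, PosDef J0 ((w : X → L2) x)) ∧ w - τ ∈ Z.Y.Nul := by
  by_contra hno
  push Not at hno
  have hμf := Z.μfin
  -- pairing
  have hpr : ∀ a b : Z.Om, ⟪Z.Y.ι a, Z.Y.st (Z.Y.ι b)⟫_ℝ =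
      ∫ x, Q ((a : X → L2) x) ((b : X → L2) x) ∂Z.μ := Z.h586_inner
  have hC0 : ∀ b : Z.Om, (b : X → L2) ∈ M.C0 := fun b => M.Om_le_C07 ((hOm _).1 b.2)
  have hint : ∀ a b : Z.Om, Integrable (fun x => Q ((a : X → L2) x) ((b : X → L2) x)) Z.μ := by
    intro a b
    rw [hμ]
    exact M.integrable_Q7 (hC0 a) (hC0 b)
  have hμ0 : Z.μ univ ≠ 0 := by
    rw [hμ]
    have := M.mu_pos
    intro h0
    rw [Measure.real, h0] at this
    simp at this
  have hpospair : ∀ a b : Z.Om, (∀ x, 0 < Q ((a : X → L2) x) ((b : X → L2) x)) →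
      0 < ⟪Z.Y.ι a, Z.Y.st (Z.Y.ι b)⟫_ℝ := by
    intro a b h
    rw [hpr]
    exact integral_pos_of_pos (hint a b) h hμ0
  have hinv : ∀ b : Z.Om, Z.Y.pm b = 0 → ∀ x, pull J0 ((b : X → L2) x) = (b : X → L2) x := by
    intro b h x
    apply inv_of_pM
    rw [← Z.pm_eq, h]; rfl
  have hpm0 : ∀ b : Z.Om, (∀ x, pull J0 ((b : X → L2) x) = (b : X → L2) x) → Z.Y.pm b = 0 := by
    intro b h
    apply Subtype.ext
    funext x
    rw [Z.pm_eq]
    exact pM_of_inv (h x)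
  -- the closed positive form
  have hw0inv : ∀ x, pull J0 ((w0 : X → L2) x) = (w0 : X → L2) x := fun x => (hw0p x).1
  have hw0pm : Z.Y.pm w0 = 0 := hpm0 w0 hw0inv
  have hw0w0 : 0 < ⟪Z.Y.ι w0, Z.Y.st (Z.Y.ι w0)⟫_ℝ :=
    hpospair w0 w0 fun x => posDef_pos (hw0p x) (hw0p x)
  have hIsCl : ∀ b : Z.Om, b ∈ Z.Y.Cl → M.IsCl (b : X → L2) := fun b h =>
    ⟨(hOm _).1 b.2, (hCl b).1 h⟩
  -- the taming form
  have hτw0 : 0 < ⟪Z.Y.ι τ, Z.Y.st (Z.Y.ι w0)⟫_ℝ := by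
    apply hpospair
    intro x
    rw [Q_comm, Q_pP_of_inv (hw0inv x)]
    exact posDef_pos (hw0p x) (hτp x)
  -- the functional `T`
  let j : M.Om →ₗ[ℝ] Z.Om :=
    { toFun := fun b => ⟨(b : X → L2), (hOm _).2 b.2⟩
      map_add' := fun _ _ => rfl
      map_smul' := fun _ _ => rfl }
  set N1 : Submodule ℝ Z.Om := Z.Y.Nul ⊔ Submodule.span ℝ {τ} with hN1
  have hN1c : N1 ≤ Z.Y.Cl := sup_le (fun c hc => hc.1) (by
    rw [Submodule.span_singleton_le_iff_mem]; exact hτ)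
  obtain ⟨t, D, ht, htK, htF⟩ := M.exists_Tcl ((N1 ⊓ LinearMap.ker Z.Y.pm).comap j) (by
    intro κ hκ c hc hlow
    rw [Submodule.mem_comap] at hκ
    obtain ⟨n, hn, y, hy, hny⟩ := Submodule.mem_sup.1 hκ.1
    obtain ⟨r, rfl⟩ := Submodule.mem_span_singleton.1 hy
    have hκp : ∀ x v, v ≠ 0 → 0 < ev ((j κ : X → L2) x) v (app J0 v) := by
      intro x v hv
      have h1 := hlow x v
      have h2 : 0 < ev F0 v (app J0 v) := by
        have := (posDef_Fm isCx_J0).2 v hv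
        rwa [G7.Fm_J0'] at this
      exact lt_of_lt_of_le (mul_pos hc h2) h1
    have hκpm : Z.Y.pm (j κ) = 0 := hκ.2
    have hκPD : ∀ x, PosDef J0 ((j κ : X → L2) x) := fun x => ⟨hinv _ hκpm x, hκp x⟩
    have hκc : j κ ∈ Z.Y.Cl := hN1c hκ.1
    have hκw : 0 < ⟪Z.Y.ι (j κ), Z.Y.st (Z.Y.ι w0)⟫_ℝ :=
      hpospair (j κ) w0 fun x => posDef_pos (hκPD x) (hw0p x)
    have hκw' : ⟪Z.Y.ι (j κ), Z.Y.st (Z.Y.ι w0)⟫_ℝ = r * ⟪Z.Y.ι τ, Z.Y.st (Z.Y.ι w0)⟫_ℝ := by
      rw [← hny, map_add, map_smul, inner_add_left, real_inner_smul_left, hn.2 w0 hw0c,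
        zero_add]
    have hr : 0 < r := by
      rw [hκw'] at hκw
      by_contra hneg
      push Not at hneg
      have := mul_nonpos_of_nonpos_of_nonneg hneg hτw0.le
      linarith
    refine hno (r⁻¹ • j κ) (Submodule.smul_mem _ _ hκc) (fun x => ?_) ?_
    · have h1 : ((r⁻¹ • j κ : Z.Om) : X → L2) x = r⁻¹ • (j κ : X → L2) x := rfl
      rw [h1]
      refine ⟨by rw [pull_smul, (hκPD x).1], fun v hv => ?_⟩
      rw [ev_smul]
      exact mul_pos (inv_pos.2 hr) ((hκPD x).2 v hv)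
    · have : r⁻¹ • j κ - τ = r⁻¹ • n := by
        rw [← hny, smul_add, smul_smul, inv_mul_cancel₀ hr.ne', one_smul]; abel
      rw [this]
      exact Submodule.smul_mem _ _ hn)
  have := ht.fin
  -- `φ`
  have hTj : ∀ c : Z.Om, c ∈ N1 ⊓ LinearMap.ker Z.Y.pm → FnSys.fn t D (c : X → L2) = 0 := by
    intro c hc
    exact htK ⟨(c : X → L2), (hOm _).1 c.2⟩ hc
  obtain ⟨φ, kφ, Cφ, hCφ, hφpm, hφbd, hkill⟩ := hFD.exists_phi Z.Y N1 le_sup_left hN1c (Z.fL ht) _
    (Z.fn_bound ht) (fun c hc hpc => hTj c ⟨hc, hpc⟩)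
  have hkill' : ∀ c ∈ Z.Y.Nul, FnSys.fn t D (c : X → L2) + φ c = 0 := fun c hc =>
    hkill c (Submodule.mem_sup_left hc)
  have hExN : Z.Y.Ex ≤ Z.Y.Nul := fun e he => ⟨Z.Y.Ex_le he, fun c hc => Z.Y.stokes e he c hc⟩
  have hφ0 : ∀ b, Z.Y.pm b = 0 → φ b = 0 := by
    intro b hb0
    rw [← hφpm, hb0, map_zero]
  -- energy
  obtain ⟨B⟩ := Z.exists_TBoundE ht φ hφpm kφ Cφ hCφ hφbd (fun e he => hkill' e (hExN he))
    (M.grow_of_sys Z hOm hEx hN ht φ hφpm (fun e he => hkill' e (hExN he)))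
  obtain ⟨mE, EE, hEE⟩ := hFD.square Z.Y
  obtain ⟨Ce, δ1, hCe, hδ1, hδ1', hen⟩ := Z.Y.energyF hEE B
  obtain ⟨f, hf, hφf⟩ := Z.Y.exists_L2rep φ hφpm kφ Cφ hφbd Ce δ1 hδ1 hδ1'
    (fun δ u h0 h1 => (hen δ h0 h1).2.1 u)
  -- the form `f` as a function
  set fh : X → L2 := fun x => pM J0 (ofE ((f : X → E6) x)) with hfh
  have hofm : Measurable fun x => ofE ((f : X → E6) x) :=
    ofE.continuous.measurable.comp (Lp.stronglyMeasurable f).measurable
  have hfm : Measurable fh := by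
    rw [hfh]
    unfold pM
    exact (hofm.sub (measurable_pull measurable_const hofm)).const_smul (1 / 2 : ℝ)
  have hfae : ∀ᵐ x ∂Z.μ, (f : X → E6) x = toE (fh x) := by
    have h := Z.pmH_eq f
    rw [hf] at h
    filter_upwards [h] with x hx
    exact hx
  have hf2 : Integrable (fun x => ‖fh x‖ ^ 2) M.mu := by
    rw [← hμ]
    have h1 : Integrable (fun x => ‖(f : X → E6) x‖ ^ 2) Z.μ :=
      (memLp_two_iff_integrable_sq_norm (Lp.aestronglyMeasurable f)).1 (Lp.memLp f)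
    refine Integrable.mono' h1 (hfm.norm.pow_const 2).aestronglyMeasurable ?_
    filter_upwards [hfae] with x hx
    rw [Real.norm_eq_abs, abs_of_nonneg (by positivity), hx]
    exact pow_le_pow_left₀ (norm_nonneg _) (norm_le_norm_toE _) 2
  have hfa : ∀ x, pull J0 (fh x) = -fh x := fun x => pull_pM isCx_J0 _
  have hfpair : ∀ b : Z.Om, ⟪f, Z.Y.st (Z.Y.ι b)⟫_ℝ = ∫ x, Q (fh x) ((b : X → L2) x) ∂Z.μ := by
    intro b
    rw [L2.inner_def]
    apply integral_congr_ae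
    filter_upwards [Z.st_eq (Z.Y.ι b), Z.ι_eq b, hfae] with x h1 h2 h3
    rw [h1, h2, h3, G9.ofE_toE, ← G9.Q_inner]
  -- the current `P`
  obtain ⟨ε, hε, hε1⟩ : ∃ ε : ℝ, 0 < ε ∧ ε = 1 := ⟨1, one_pos, rfl⟩
  set g : Z.Om := τ - ε • w0 with hg
  have hgc : g ∈ Z.Y.Cl := sub_mem hτ (Submodule.smul_mem _ _ hw0c)
  obtain ⟨p, E, hp, hpP⟩ := M.exists_Pcl (w0 := (w0 : X → L2)) (hIsCl w0 hw0c) hw0p
    (e := (g : X → L2)) (hC0 g)
    (by
      intro c hc hcp
      set c' : Z.Om := ⟨c, (hOm _).2 hc.1⟩ with hc'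
      have hc'c : c' ∈ Z.Y.Cl := (hCl _).2 hc.2
      have h1 : ∀ s : ℝ, 0 < s → 0 ≤ Z.Y.pr g c' + s * Z.Y.pr g w0 := by
        intro s hs
        have h2 := hdual (c' + s • w0) (add_mem hc'c (Submodule.smul_mem _ _ hw0c)) (fun x => by
          refine ⟨pull_pP isCx_J0 _, fun v hv => ?_⟩
          rw [ev_pP isCx_J0]
          show 0 < ev (c x + s • (w0 : X → L2) x) v (app J0 v)
          rw [ev_add, ev_smul]
          exact add_pos_of_nonneg_of_pos (hcp x v) (mul_pos hs ((hw0p x).2 v hv)))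
        rw [← Z.Y.pr_smul', ← Z.Y.pr_add', hg, hε1, one_smul, Z.Y.pr_sub]
        linarith
      have h3 : 0 ≤ Z.Y.pr g c' := by
        have hlim : Tendsto (fun s : ℝ => Z.Y.pr g c' + s * Z.Y.pr g w0) (𝓝[>] 0)
            (𝓝 (Z.Y.pr g c' + 0 * Z.Y.pr g w0)) :=
          (Continuous.tendsto (by fun_prop) 0).mono_left nhdsWithin_le_nhds
        rw [zero_mul, add_zero] at hlim
        exact ge_of_tendsto hlim (by
          filter_upwards [self_mem_nhdsWithin] with s hs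
          exact h1 s hs)
      rw [SmSys.pr, hpr, hμ] at h3
      exact h3)
  have hpc : ∀ e ∈ M.Ex, FnSys.fn p E (e : X → L2) = 0 := by
    intro e he
    rw [hpP _ ⟨e.2, M.Ex_le_Cl he⟩]
    have h1 := M.stokesX he (c := ⟨(g : X → L2), (hOm _).1 g.2⟩) ((hCl g).1 hgc)
    rw [← h1]
    congr 1; funext x
    exact Q_comm _ _
  obtain ⟨Cd, -, hd⟩ := grow_P M hp (0 : Measure X) (fun e he => by
    rw [integral_zero_measure, zero_add]; exact hpc e he)
  have := hp.fin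
  -- El Mir
  obtain ⟨hS, hTS⟩ := elmir_T_of (fun hJ hcx hpos _ _ h hd => exists_EMData3 hJ hcx hpos h hd)
    (fun hJ hcx hpos _ E _ _ h0 hdom hlow hae _ _ _ h η hη =>
      EMData3.elmir hJ hcx hpos E h0 hdom hlow hae h η hη) M (hIsCl w0 hw0c) hw0p hp hpc ⟨Cd, hd⟩ ht
    fh hfm hf2 hfa (by
      intro e he
      have h1 := hkill' (j e) (hExN ((hEx _).2 ⟨e, he, rfl⟩))
      rw [hφf, hfpair, hμ] at h1
      exact h1)
  set S : Set X := {x | potX p x < ⊤} with hSdef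
  have ht' : FnSys.Cur (t.restrict S) D := ⟨inferInstance, ht.meas, ht.cone, ht.norm⟩
  have hfin := Z.final_ge hPG ht' hp ⟨Cd, hd⟩ (by
      rw [ae_restrict_iff' hS]
      exact ae_of_all _ fun x hx => hx) f hf (by
      intro e he
      obtain ⟨e', he', hee⟩ := (hEx e).1 he
      have h1 := hTS e' he'
      rw [hfpair, hμ, ← hee]
      exact h1) g (by
      intro c hc
      rw [hpP _ (hIsCl c hc), hpr, hμ])
  -- the contradiction
  rw [← hφf] at hfin
  have hφg : φ g = φ τ := by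
    rw [hg, map_sub, map_smul, hφ0 w0 hw0pm, smul_zero, sub_zero]
  have hφτ : FnSys.fn t D (τ : X → L2) + φ τ = 0 :=
    hkill τ (Submodule.mem_sup_right (Submodule.mem_span_singleton_self _))
  have hDne : ∀ x, D x ≠ 0 := by
    intro x h0
    have := ht.norm x
    rw [h0, Q_zero_left] at this
    exact zero_ne_one this
  have hDw : ∀ x, 0 < Q (D x) ((w0 : X → L2) x) := fun x =>
    Q_posDef_pos isCx_J0 posJ0 (ht.cone x) (hDne x) (hw0p x)
  have hDτ : ∀ x, 0 < Q (D x) ((τ : X → L2) x) := by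
    intro x
    rw [Q_pP_of_inv (ht.cone x).1]
    exact Q_posDef_pos isCx_J0 posJ0 (ht.cone x) (hDne x) (hτp x)
  have hiw := Z.fn_integrable ht w0
  have hiτ := Z.fn_integrable ht τ
  have htuniv : t univ ≠ 0 := by
    intro h0
    have h1 : t = 0 := Measure.measure_univ_eq_zero.1 h0
    rw [FnSys.fn, h1, integral_zero_measure] at htF
    exact zero_ne_one htF
  have hsplit : FnSys.fn t D (τ : X → L2) = FnSys.fn (t.restrict S) D (τ : X → L2) +
      FnSys.fn (t.restrict Sᶜ) D (τ : X → L2) := (integral_add_compl hS hiτ).symm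
  have hgS : FnSys.fn (t.restrict S) D (g : X → L2) = FnSys.fn (t.restrict S) D (τ : X → L2) -
      ε * FnSys.fn (t.restrict S) D (w0 : X → L2) := by
    have h1 := Z.fn_add ht' g (ε • w0)
    have h2 := Z.fn_smul ht' ε w0
    have h3 : g + ε • w0 = τ := by rw [hg]; abel
    rw [h3, h2] at h1
    linarith
  have hpos : 0 < ε * FnSys.fn (t.restrict S) D (w0 : X → L2) +
      FnSys.fn (t.restrict Sᶜ) D (τ : X → L2) := by
    classical
    have h1 : ε * FnSys.fn (t.restrict S) D (w0 : X → L2) + FnSys.fn (t.restrict Sᶜ) D (τ : X → L2)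
        = ∫ x, (S.indicator (fun x => ε * Q (D x) ((w0 : X → L2) x)) x +
          Sᶜ.indicator (fun x => Q (D x) ((τ : X → L2) x)) x) ∂t := by
      rw [integral_add ((hiw.const_mul ε).indicator hS) (hiτ.indicator hS.compl),
        integral_indicator hS, integral_indicator hS.compl, integral_const_mul]
      rfl
    rw [h1]
    refine integral_pos_of_pos (((hiw.const_mul ε).indicator hS).add (hiτ.indicator hS.compl))
      (fun x => ?_) htuniv
    by_cases hx : x ∈ S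
    · rw [indicator_of_mem hx, indicator_of_notMem (by simpa using hx), add_zero]
      exact mul_pos hε (hDw x)
    · rw [indicator_of_notMem hx, indicator_of_mem (show x ∈ Sᶜ from hx), zero_add]
      exact hDτ x
  rw [hgS, hφg] at hfin
  linarith

end CM
end Vale.Agent.P204.GX
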