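import Vale.Agent.N204.Cls
import Vale.Agent.P204.CV.Final

set_option linter.all false

/-! P204, cones: the statement on abstract data, its transport, and its proof for a smoothing
system. -/

open MeasureTheory Set Filter Topology
open scoped ContDiff InnerProductSpace

namespace Vale.Agent.N204

/-- the data which enter the statement -/
structure CD (V : Type*) where
  Cl : V → Prop
  Tm : V → Prop
  Cp : V → Prop
  An : V → Prop
  Ex : V → Prop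
  I : V → V → ℝ

namespace CD
variable {V V' : Type*} [AddCommGroup V] [Module ℝ V] [AddCommGroup V'] [Module ℝ V']

def Du (D : CD V) (c : V) : Prop := D.Cl c ∧ ∀ σ, D.Tm σ → 0 ≤ D.I c σ

/-- the statement -/
def Thm (D : CD V) (τ : V) : Prop :=
  List.TFAE [∃ w, D.Cp w ∧ D.Ex (w - τ), ∃ w, D.Cp w ∧ D.Du (τ - w),
    ∀ c, D.Du c → ∃ ε : ℝ, 0 < ε ∧ D.Du (τ - ε • c)] ∧
  (∀ m : ℕ, (∃ a : Fin m → V, (∀ i, D.An (a i)) ∧ LinearIndependent ℝ a) →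
    (∀ c : Fin (m + 1 + 1) → V, (∀ i, D.Cl (c i)) →
      ¬ ∀ s : Fin (m + 1 + 1) → ℝ, s ≠ 0 → 0 < D.I (∑ i, s i • c i) (∑ i, s i • c i)) →
    ∃ w α, D.Cp w ∧ D.An α ∧ D.Ex (w + α - τ)) ∧
  ∀ w α, D.Cp w → D.An α → D.Tm (w + α)

theorem Thm.map {D : CD V} {D' : CD V'} (f : V' →ₗ[ℝ] V)
    (hCl : ∀ x, D.Cl (f x) ↔ D'.Cl x) (hTm : ∀ x, D.Tm (f x) ↔ D'.Tm x)
    (hCp : ∀ x, D.Cp (f x) ↔ D'.Cp x) (hAn : ∀ x, D.An (f x) ↔ D'.An x)
    (hEx : ∀ x, D.Ex (f x) ↔ D'.Ex x) (hI : ∀ x y, D.I (f x) (f y) = D'.I x y)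
    (sCl : ∀ y, D.Cl y → ∃ x, f x = y) (sTm : ∀ y, D.Tm y → D.Cl y)
    (sCp : ∀ y, D.Cp y → D.Cl y) (sAn : ∀ y, D.An y → D.Cl y) {τ : V'} (h : D'.Thm τ) :
    D.Thm (f τ) := by
  have hDu : ∀ x, D.Du (f x) ↔ D'.Du x := by
    intro x
    refine and_congr (hCl x) ⟨fun h σ hσ => ?_, fun h σ hσ => ?_⟩
    · rw [← hI]; exact h _ ((hTm σ).2 hσ)
    · obtain ⟨y, rfl⟩ := sCl σ (sTm σ hσ)
      rw [hI]; exact h _ ((hTm y).1 hσ)
  obtain ⟨h1, h2, h4⟩ := h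
  have e1 : (∃ w, D.Cp w ∧ D.Ex (w - f τ)) ↔ ∃ w, D'.Cp w ∧ D'.Ex (w - τ) := by
    constructor
    · rintro ⟨w, hw, he⟩
      obtain ⟨y, rfl⟩ := sCl w (sCp w hw)
      rw [← map_sub] at he
      exact ⟨y, (hCp y).1 hw, (hEx _).1 he⟩
    · rintro ⟨w, hw, he⟩
      exact ⟨f w, (hCp w).2 hw, by rw [← map_sub]; exact (hEx _).2 he⟩
  have e2 : (∃ w, D.Cp w ∧ D.Du (f τ - w)) ↔ ∃ w, D'.Cp w ∧ D'.Du (τ - w) := by
    constructor
    · rintro ⟨w, hw, he⟩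
      obtain ⟨y, rfl⟩ := sCl w (sCp w hw)
      rw [← map_sub] at he
      exact ⟨y, (hCp y).1 hw, (hDu _).1 he⟩
    · rintro ⟨w, hw, he⟩
      exact ⟨f w, (hCp w).2 hw, by rw [← map_sub]; exact (hDu _).2 he⟩
  have e3 : (∀ c, D.Du c → ∃ ε : ℝ, 0 < ε ∧ D.Du (f τ - ε • c)) ↔
      ∀ c, D'.Du c → ∃ ε : ℝ, 0 < ε ∧ D'.Du (τ - ε • c) := by
    constructor
    · intro h c hc
      obtain ⟨ε, hε, he⟩ := h (f c) ((hDu c).2 hc)
      rw [← map_smul, ← map_sub] at he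
      exact ⟨ε, hε, (hDu _).1 he⟩
    · intro h c hc
      obtain ⟨y, rfl⟩ := sCl c hc.1
      obtain ⟨ε, hε, he⟩ := h y ((hDu y).1 hc)
      exact ⟨ε, hε, by rw [← map_smul, ← map_sub]; exact (hDu _).2 he⟩
  refine ⟨?_, fun m ⟨a, ha, hli⟩ hb => ?_, fun w α hw hα => ?_⟩
  · rw [e1, e2, e3]
    exact h1
  · choose a' ha' using fun i => sCl (a i) (sAn _ (ha i))
    obtain ⟨w, α, hw, hα, he⟩ := h2 m ⟨a', fun i => (hAn _).1 (by rw [ha']; exact ha i),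
      LinearIndependent.of_comp f (by
        have : f ∘ a' = a := funext ha'
        rw [this]; exact hli)⟩ (fun c hc hpos => hb (fun i => f (c i))
          (fun i => (hCl _).2 (hc i)) fun s hs => by
            have h3 := hpos s hs
            rw [← hI, map_sum] at h3
            simpa only [map_smul] using h3)
    exact ⟨f w, f α, (hCp w).2 hw, (hAn α).2 hα, by
      rw [← map_add, ← map_sub]; exact (hEx _).2 he⟩
  · obtain ⟨w', rfl⟩ := sCl w (sCp w hw)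
    obtain ⟨α', rfl⟩ := sCl α (sAn α hα)
    rw [← map_add]
    exact (hTm _).2 (h4 w' α' ((hCp _).1 hw) ((hAn _).1 hα))

end CD

end Vale.Agent.N204

namespace Vale.Agent.P204.GX
open Vale.Agent.P204.T4 _root_.P204.GX Vale.Agent.N204

variable {X : Type} [MetricSpace X] [CompactSpace X] [MeasurableSpace X] [BorelSpace X]

/-- the data of a smoothing system -/
noncomputable def FnSys.cd (Z : FnSys X) : CD Z.Om where
  Cl b := b ∈ Z.Y.Cl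
  Tm b := b ∈ Z.Y.Cl ∧ ∀ x v, v ≠ 0 → 0 < ev ((b : X → L2) x) v (app J0 v)
  Cp b := b ∈ Z.Y.Cl ∧ ∀ x, PosDef J0 ((b : X → L2) x)
  An b := b ∈ Z.Y.Cl ∧ ∀ x, pull J0 ((b : X → L2) x) = -(b : X → L2) x
  Ex b := b ∈ Z.Y.Ex
  I := Z.Y.pr

theorem posDef_pP {A : L2} : PosDef J0 (pP J0 A) ↔ ∀ v, v ≠ 0 → 0 < ev A v (app J0 v) := by
  constructor
  · intro h v hv
    rw [← ev_pP isCx_J0]
    exact h.2 v hv
  · intro h
    exact ⟨pull_pP isCx_J0 _, fun v hv => by rw [ev_pP isCx_J0]; exact h v hv⟩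

theorem pM_of_anti {A : L2} (h : pull J0 A = -A) : pM J0 A = A := by
  unfold pM
  rw [h, sub_neg_eq_add, ← two_smul ℝ A, smul_smul]
  norm_num

theorem ev_anti {A : L2} (h : pull J0 A = -A) (v : V4) : ev A v (app J0 v) = 0 := by
  have h1 : pP J0 A = 0 := by
    unfold pP
    rw [h, add_neg_cancel, smul_zero]
  rw [← ev_pP isCx_J0, h1]
  simp [ev_eq]

theorem CM.pr_pos [Nonempty X] (M : CM X) (Z : FnSys X) (hμ : Z.μ = M.mu)
    (hOm : ∀ u : X → L2, u ∈ Z.Om ↔ u ∈ M.Om) (a b : Z.Om)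
    (h : ∀ x, 0 < Q ((a : X → L2) x) ((b : X → L2) x)) : 0 < Z.Y.pr a b := by
  have hC0 : ∀ b : Z.Om, (b : X → L2) ∈ M.C0 := fun b => M.Om_le_C07 ((hOm _).1 b.2)
  have hμ0 : Z.μ univ ≠ 0 := by
    rw [hμ]
    have := M.mu_pos
    intro h0
    rw [Measure.real, h0] at this
    simp at this
  rw [SmSys.pr, Z.h586_inner]
  refine CM.integral_pos_of_pos ?_ h hμ0
  rw [hμ]
  exact M.integrable_Q7 (hC0 a) (hC0 b)

theorem CM.pr_cp_tm [Nonempty X] (M : CM X) (Z : FnSys X) (hμ : Z.μ = M.mu)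
    (hOm : ∀ u : X → L2, u ∈ Z.Om ↔ u ∈ M.Om) (w σ : Z.Om) (hw : Z.cd.Cp w) (hσ : Z.cd.Tm σ) :
    0 < Z.Y.pr σ w := by
  refine M.pr_pos Z hμ hOm _ _ fun x => ?_
  rw [Q_comm, CM.Q_pP_of_inv (hw.2 x).1]
  exact CM.posDef_pos (hw.2 x) (posDef_pP.2 (hσ.2 x))

theorem CM.thm_of_sys [Nonempty X] (M : CM X) (Z : FnSys X) (hμ : Z.μ = M.mu)
    (hOm : ∀ u : X → L2, u ∈ Z.Om ↔ u ∈ M.Om)
    (hCl : ∀ b : Z.Om, b ∈ Z.Y.Cl ↔ ∀ a, Closed (M.cf a (b : X → L2)))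
    (hEx : ∀ b : Z.Om, b ∈ Z.Y.Ex ↔ ∃ e ∈ M.Ex, (e : X → L2) = (b : X → L2))
    (hN : ∀ m, ∃ K : ℝ, 0 ≤ K ∧ ∀ δ (b : Z.Om), 0 < δ → δ ≤ 1 →
      Z.Y.N m δ b ≤ K * M.NN m δ (b : X → L2)) (hPG : HasPG Z) (hFD : Z.Y.FD)
    (hNul : Z.Y.Nul ≤ Z.Y.Ex) (τ : Z.Om) (hτ : Z.cd.Tm τ) : Z.cd.Thm τ := by
  have hμf := Z.μfin
  have hpr : ∀ a b : Z.Om, Z.Y.pr a b = ∫ x, Q ((a : X → L2) x) ((b : X → L2) x) ∂Z.μ :=
    Z.h586_inner
  have hC0 : ∀ b : Z.Om, (b : X → L2) ∈ M.C0 := fun b => M.Om_le_C07 ((hOm _).1 b.2)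
  have hpos := M.pr_pos Z hμ hOm
  have hExN : ∀ e ∈ Z.Y.Ex, ∀ c ∈ Z.Y.Cl, Z.Y.pr e c = 0 := Z.Y.stokes
  -- the main theorem
  have main : ∀ τ w : Z.Om, Z.cd.Tm τ → Z.cd.Cp w → Z.cd.Du (τ - w) →
      ∃ w', Z.cd.Cp w' ∧ Z.cd.Ex (w' - τ) := by
    intro τ w hτ hw hd
    obtain ⟨w', h1, h2, h3⟩ := M.class_of_dual Z hμ hOm hCl hEx hN hPG hFD τ hτ.1
      (fun x => posDef_pP.2 (hτ.2 x)) w hw.1 hw.2 (fun σ hσ hσp => by
        have h4 : 0 ≤ Z.Y.pr (τ - w) σ := hd.2 σ ⟨hσ, fun x => posDef_pP.1 (hσp x)⟩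
        rw [Z.Y.pr_sub] at h4
        linarith)
    exact ⟨w', ⟨h1, h2⟩, hNul h3⟩
  -- a compatible form
  obtain ⟨w0, hw0⟩ : ∃ w0 : Z.Om, Z.cd.Cp w0 := by
    obtain ⟨w00, h1, h2, h3⟩ := M.main_of_sys' Z hμ hOm hCl hEx hN
    exact ⟨⟨w00, (hOm _).2 h1⟩, (hCl _).2 h2, h3⟩
  have hsm : ∀ (w : Z.Om) (r : ℝ), 0 < r → Z.cd.Cp w → Z.cd.Cp (r • w) := by
    intro w r hr hw
    refine ⟨Submodule.smul_mem _ _ hw.1, fun x => ?_⟩
    have h1 : ((r • w : Z.Om) : X → L2) x = r • (w : X → L2) x := rfl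
    rw [h1]
    refine ⟨by rw [pull_smul, (hw.2 x).1], fun v hv => ?_⟩
    rw [ev_smul]
    exact mul_pos hr ((hw.2 x).2 v hv)
  have hcone : ∀ u σ : Z.Om, (∀ x, Cone J0 ((u : X → L2) x)) → Z.cd.Tm σ → 0 ≤ Z.Y.pr u σ := by
    intro u σ hu hσ
    rw [hpr]
    refine integral_nonneg fun x => ?_
    show 0 ≤ Q ((u : X → L2) x) ((σ : X → L2) x)
    rw [CM.Q_pP_of_inv (hu x).1]
    exact Q_cone_nonneg isCx_J0 posJ0 (hu x)
      (CM.cone_of_posDef (posDef_pP.2 (hσ.2 x)))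
  have hCpTm := M.pr_cp_tm Z hμ hOm
  have hTmTm : ∀ σ : Z.Om, Z.cd.Tm σ → 0 < Z.Y.pr σ σ := by
    intro σ hσ
    refine hpos _ _ fun x => ?_
    rw [Q_self_split isCx_J0 posJ0]
    have h1 := CM.posDef_pos (posDef_pP.2 (hσ.2 x)) (posDef_pP.2 (hσ.2 x))
    have h2 := CM.Q_pM_self_nonneg ((σ : X → L2) x)
    linarith
  have hCpT : ∀ w : Z.Om, Z.cd.Cp w → Z.cd.Tm w := fun w hw => ⟨hw.1, fun x => (hw.2 x).2⟩
  -- domination
  have hdom : ∀ w c : Z.Om, Z.cd.Cp w → ∃ t : ℝ, 0 < t ∧ ∀ x v, v ≠ 0 →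
      0 < ev ((c : X → L2) x) v (app J0 v) + t * ev ((w : X → L2) x) v (app J0 v) := by
    intro w c hw
    obtain ⟨c0, hc0, h1⟩ := M.exists_lower (hC0 w) (fun x => (hw.2 x).2)
    obtain ⟨t0, ht0, h2⟩ := M.exists_unit (hC0 c)
    refine ⟨t0 / c0 + 1, by positivity, fun x v hv => ?_⟩
    have h3 := mul_le_mul_of_nonneg_left (h1 x v) (by positivity : 0 ≤ t0 / c0)
    have h4 : t0 / c0 * (c0 * ev F0 v (app J0 v)) = t0 * ev F0 v (app J0 v) := by field_simp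
    have h5 := h2 x v
    have h6 := (hw.2 x).2 v hv
    rw [h4] at h3
    linarith
  refine ⟨?_, fun m ⟨a, ha, hli⟩ hb => ?_, fun w α hw hα => ⟨add_mem hw.1 hα.1, fun x v hv => ?_⟩⟩
  · tfae_have 1 → 3 := by
      rintro ⟨w, hw, he⟩ c hc
      obtain ⟨t, ht, h1⟩ := hdom w c hw
      obtain ⟨w', hw', he'⟩ := main (c + t • w) (t • w)
        ⟨add_mem hc.1 (Submodule.smul_mem _ _ hw.1), fun x v hv => by
          show 0 < ev ((c : X → L2) x + t • (w : X → L2) x) v (app J0 v)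
          rw [ev_add, ev_smul]
          exact h1 x v hv⟩ (hsm w t ht hw) (by rw [add_sub_cancel_right]; exact hc)
      obtain ⟨s, hs, h2⟩ := hdom w (-w') hw
      refine ⟨s⁻¹, inv_pos.2 hs, sub_mem hτ.1 (Submodule.smul_mem _ _ hc.1), fun σ hσ => ?_⟩
      have h3 := hcone (w - s⁻¹ • w' + (s⁻¹ * t) • w) σ (fun x => by
        show Cone J0 ((w : X → L2) x - s⁻¹ • (w' : X → L2) x + (s⁻¹ * t) • (w : X → L2) x)
        refine ⟨by rw [pull_add, pull_sub, pull_smul, pull_smul, (hw.2 x).1, (hw'.2 x).1],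
          fun v => ?_⟩
        rw [ev_add, ev_sub, ev_smul, ev_smul]
        rcases eq_or_ne v 0 with rfl | hv
        · simp [app_zero, ev_self]
        · have h4 := h2 x v hv
          have h5 : ((-w' : Z.Om) : X → L2) x = -(w' : X → L2) x := rfl
          rw [h5, ev_neg] at h4
          have h6 := (hw.2 x).2 v hv
          have h7 : s⁻¹ * ev ((w' : X → L2) x) v (app J0 v) ≤ ev ((w : X → L2) x) v (app J0 v) := by
            rw [inv_mul_le_iff₀ hs]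
            linarith
          have h8 : 0 ≤ s⁻¹ * t * ev ((w : X → L2) x) v (app J0 v) := by positivity
          linarith) hσ
      have h4 := hExN _ he σ hσ.1
      have h5 := hExN _ he' σ hσ.1
      show 0 ≤ Z.Y.pr _ _
      simp only [Z.Y.pr_sub, Z.Y.pr_add, Z.Y.pr_smul] at h3 h4 h5 ⊢
      have h6 : Z.Y.pr c σ = Z.Y.pr w' σ - t * Z.Y.pr w σ := by linarith
      rw [h6]
      nlinarith
    tfae_have 3 → 2 := by
      intro h
      obtain ⟨ε, hε, h1⟩ := h w0 ⟨hw0.1, fun σ hσ => by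
        show 0 ≤ Z.Y.pr _ _
        rw [Z.Y.pr_symm]
        exact (hCpTm w0 σ hw0 hσ).le⟩
      exact ⟨ε • w0, hsm w0 ε hε hw0, h1⟩
    tfae_have 2 → 1 := by
      rintro ⟨w, hw, hd⟩
      exact main τ w hτ hw hd
    tfae_finish
  · have hapm : ∀ i, Z.Y.pm (a i) = a i := by
      intro i
      apply Subtype.ext
      funext x
      rw [Z.pm_eq]
      exact pM_of_anti ((ha i).2 x)
    have hw0pm : Z.Y.pm w0 = 0 := by
      apply Subtype.ext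
      funext x
      rw [Z.pm_eq]
      exact pM_of_inv (hw0.2 x).1
    have hw0a : ∀ i, Z.Y.pr w0 (a i) = 0 := fun i => Z.Y.pr_inv_anti hw0pm (hapm i)
    -- projection of taming forms
    have hproj : ∀ σ : Z.Om, Z.cd.Tm σ → ∃ s : Fin m → ℝ, Z.cd.An (∑ j, s j • a j) ∧
        Z.cd.Tm (σ - ∑ j, s j • a j) ∧ ∀ i, Z.Y.pr (σ - ∑ j, s j • a j) (a i) = 0 := by
      intro σ hσ
      obtain ⟨s, hs⟩ := Z.Y.exists_proj a hapm σ
      have h1 : ∑ j, s j • a j ∈ Z.Y.Cl :=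
        Submodule.sum_mem _ fun j _ => Submodule.smul_mem _ _ (ha j).1
      have h2 : Z.Y.pm (∑ j, s j • a j) = ∑ j, s j • a j := by
        rw [map_sum]
        simp only [map_smul, hapm]
      have h3 : ∀ x, pull J0 (((∑ j, s j • a j : Z.Om) : X → L2) x) =
          -((∑ j, s j • a j : Z.Om) : X → L2) x := by
        intro x
        rw [← h2, Z.pm_eq]
        exact pull_pM isCx_J0 _
      refine ⟨s, ⟨h1, h3⟩, ⟨sub_mem hσ.1 h1, fun x v hv => ?_⟩, hs⟩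
      show 0 < ev ((σ : X → L2) x - ((∑ j, s j • a j : Z.Om) : X → L2) x) v (app J0 v)
      rw [ev_sub, ev_anti (h3 x), sub_zero]
      exact hσ.2 x v hv
    obtain ⟨s, hα, hτ', hτa⟩ := hproj τ hτ
    set α : Z.Om := ∑ j, s j • a j with hαdef
    set τ' : Z.Om := τ - α with hτ'def
    have ha1 := hTmTm τ' hτ'
    have hb1 := hCpTm w0 τ' hw0 hτ'
    have hc1 := hTmTm w0 (hCpT w0 hw0)
    set qa := Z.Y.pr τ' τ'
    set qb := Z.Y.pr τ' w0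
    set qc := Z.Y.pr w0 w0
    obtain ⟨ε, hε, hε1, hε2⟩ : ∃ ε : ℝ, 0 < ε ∧ 0 < qa - 2 * ε * qb + ε ^ 2 * qc ∧
        0 < qb - ε * qc := by
      refine ⟨min (qa / (4 * qb)) (qb / (2 * qc)), by positivity, ?_, ?_⟩
      · have h1 : min (qa / (4 * qb)) (qb / (2 * qc)) * qb ≤ qa / 4 := by
          calc _ ≤ qa / (4 * qb) * qb := by
                apply mul_le_mul_of_nonneg_right (min_le_left _ _) hb1.le
            _ = qa / 4 := by field_simp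
        have h2 : 0 ≤ (min (qa / (4 * qb)) (qb / (2 * qc))) ^ 2 * qc := by positivity
        linarith
      · have h1 : min (qa / (4 * qb)) (qb / (2 * qc)) * qc ≤ qb / 2 := by
          calc _ ≤ qb / (2 * qc) * qc := by
                apply mul_le_mul_of_nonneg_right (min_le_right _ _) hc1.le
            _ = qb / 2 := by field_simp
        linarith
    have hgc : τ' - ε • w0 ∈ Z.Y.Cl := sub_mem hτ'.1 (Submodule.smul_mem _ _ hw0.1)
    have hga : ∀ i, Z.Y.pr (τ' - ε • w0) (a i) = 0 := fun i => by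
      rw [Z.Y.pr_sub, Z.Y.pr_smul, hτa, hw0a, mul_zero, sub_zero]
    obtain ⟨w, hw, he⟩ := main τ' (ε • w0) hτ' (hsm w0 ε hε hw0) ⟨hgc, fun σ hσ => by
      obtain ⟨s', hα', hσ', hσa⟩ := hproj σ hσ
      have h1 := Z.Y.light_of_index hapm (fun i => (ha i).1) hli hb hw0.1 hgc hσ'.1 hc1 hw0a hga hσa
        (by
          simp only [Z.Y.pr_sub, Z.Y.pr_sub', Z.Y.pr_smul, Z.Y.pr_smul']
          rw [Z.Y.pr_symm w0 τ']
          linarith)
        (by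
          rw [Z.Y.pr_sub, Z.Y.pr_smul]
          exact hε2) (hTmTm _ hσ').le (hCpTm w0 _ hw0 hσ')
      have h2 : Z.Y.pr (∑ j, s' j • a j) (τ' - ε • w0) = 0 := by
        rw [Z.Y.pr_sum]
        exact Finset.sum_eq_zero fun j _ => by
          rw [Z.Y.pr_smul, Z.Y.pr_symm, hga, mul_zero]
      rw [Z.Y.pr_sub' σ, Z.Y.pr_symm _ (∑ j, s' j • a j), h2, sub_zero] at h1
      exact h1⟩
    refine ⟨w, α, hw, hα, ?_⟩
    have h1 : w + α - τ = w - τ' := by rw [hτ'def]; abel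
    rw [h1]
    exact he
  · show 0 < ev ((w : X → L2) x + (α : X → L2) x) v (app J0 v)
    rw [ev_add, ev_anti (hα.2 x), add_zero]
    exact (hw.2 x).2 v hv

end Vale.Agent.P204.GX
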