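import Vale.Agent.P204.CV.ClsStmt

/-!
# P204: the tamed cone and the compatible cone of an almost complex four-manifold

Two-forms, almost complex structures, symplectic, taming and compatible forms are those of
`Vale/Agent/P204/DC/Stmt.lean`; exact forms and the integral of `α ∧ β` are those of
`Vale/Agent/P204/CV/ClsStmt.lean`.
-/

open scoped Manifold ContDiff

namespace Vale.Agent.N204

open Vale.Agent.P204.DC Vale.Agent.P204.Cls

variable {E : Type*} [NormedAddCommGroup E] [NormedSpace ℝ E]
variable {X : Type*} [TopologicalSpace X] [ChartedSpace E X]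

/-- A smooth closed two-form. -/
def Closed (th : TwoForm E X) : Prop := SmoothForm th ∧ ClosedForm th

/-- A symplectic form which tames `J`. -/
def Tamed (J : EndField E X) (om : TwoForm E X) : Prop := Symplectic om ∧ Tames om J

/-- A symplectic form which is compatible with `J`. -/
def Compat (J : EndField E X) (om : TwoForm E X) : Prop := Symplectic om ∧ Compatible om J

/-- A smooth closed `J`-anti-invariant two-form. -/
def Anti (J : EndField E X) (al : TwoForm E X) : Prop :=
  Closed al ∧ ∀ x (u v : TangentSpace 𝓘(ℝ, E) x), al x ![J x u, J x v] = -al x ![u, v]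

/-- The dual cone of the tamed cone for the pairing `I`: smooth closed forms which pair
nonnegatively with all symplectic forms taming `J`. -/
def Dual (J : EndField E X) (I : TwoForm E X → TwoForm E X → ℝ) (th : TwoForm E X) : Prop :=
  Closed th ∧ ∀ si, Tamed J si → 0 ≤ I th si

/-- `h⁻_J ≥ m`: there are `m` linearly independent closed anti-invariant forms. -/
def HMinusGe (J : EndField E X) (m : ℕ) : Prop :=
  ∃ a : Fin m → TwoForm E X, (∀ i, Anti J (a i)) ∧ LinearIndependent ℝ a

/-- `b₂⁺ ≤ n`: there are no `n + 1` closed forms on whose combinations `I` is positive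
definite. -/
def BPlusLe (I : TwoForm E X → TwoForm E X → ℝ) (n : ℕ) : Prop :=
  ∀ c : Fin (n + 1) → TwoForm E X, (∀ i, Closed (c i)) →
    ¬ ∀ s : Fin (n + 1) → ℝ, s ≠ 0 → 0 < I (∑ i, s i • c i) (∑ i, s i • c i)

/-- `ta` is, up to an exact form, the sum of a compatible symplectic form and a closed
anti-invariant form. -/
def Splits (J : EndField E X) (ta : TwoForm E X) : Prop :=
  ∃ om al, Compat J om ∧ Anti J al ∧ IsExact (om + al - ta)

/-- The following are equivalent: (a) a compatible symplectic form is cohomologous to `ta`;
(b) `ta - om` is in the dual cone for some compatible symplectic form `om`; (c) `ta` is in the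
relative interior of the dual cone. -/
def Criterion (J : EndField E X) (I : TwoForm E X → TwoForm E X → ℝ) (ta : TwoForm E X) : Prop :=
  List.TFAE [∃ om, Compat J om ∧ IsExact (om - ta), ∃ om, Compat J om ∧ Dual J I (ta - om),
    ∀ th, Dual J I th → ∃ ε : ℝ, 0 < ε ∧ Dual J I (ta - ε • th)]

/-- The statement on the cones of `(X, J)`; `μ` and `b` are Lebesgue measure and the standard basis
of the model space. -/
def Cones [MeasurableSpace E] (μ : MeasureTheory.Measure E) (b : Module.Basis (Fin 4) ℝ E)
    (J : EndField E X) : Prop :=
  (∀ om al, Compat J om → Anti J al → Tamed J (om + al)) ∧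
  ∀ ta, Tamed J ta → (∃ I, IsIntegral μ b J I) ∧ ∀ I, IsIntegral μ b J I →
    Criterion J I ta ∧ ∀ m : ℕ, HMinusGe J m → BPlusLe I (m + 1) → Splits J ta

end Vale.Agent.N204
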