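import Vale.Agent.N204.Core
import Vale.Agent.N204.Defs
import Vale.Agent.P204.CV.ClsMain

set_option linter.all false

/-! P204, cones: transfer to closed four-manifolds. -/

open scoped Manifold ContDiff Topology
open Set MeasureTheory

namespace Vale.Agent.N204

open Vale.Agent.P204 Vale.Agent.P204.T4

/-- the data of an almost complex manifold -/
def mcd {E : Type*} [NormedAddCommGroup E] [NormedSpace ℝ E] {X : Type*} [TopologicalSpace X]
    [ChartedSpace E X] (J : DC.EndField E X) (I : DC.TwoForm E X → DC.TwoForm E X → ℝ) :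
    CD (DC.TwoForm E X) where
  Cl := Closed
  Tm := Tamed J
  Cp := Compat J
  An := Anti J
  Ex := Cls.IsExact
  I := I

theorem thm0 (X : Type) [TopologicalSpace X] [ChartedSpace SC.E4 X] [IsManifold (𝓡 4) ∞ X]
    [CompactSpace X] [T2Space X] [ConnectedSpace X] (J : DC.EndField SC.E4 X)
    (hJ : DC.AlmostComplex J) (om : DC.TwoForm SC.E4 X) (hom : Tamed J om)
    (I : DC.TwoForm SC.E4 X → DC.TwoForm SC.E4 X → ℝ) (hI : SC.IsIntegral J I) :
    (mcd J I).Thm om ∧ (∀ e c, DC.SmoothForm e → Cls.IsExact e → Closed c → I e c = 0) ∧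
      ∀ w σ, Compat J w → Tamed J σ → 0 < I w σ := by
  have hJ' : Mfd.AlmostComplex (X := X) J := ⟨hJ.smooth, hJ.sq⟩
  obtain ⟨A⟩ := Mfd.exists_finAtlas hJ'
  letI : MeasurableSpace X := borel X
  haveI : BorelSpace X := ⟨rfl⟩
  have hT : Mfd.Tames (X := X) om J := hom.2
  have hS : Mfd.SmoothForm (X := X) om := hom.1.smooth
  have hC : Mfd.ClosedForm (X := X) om := hom.1.closed
  have hII := A.isIntegral_II om hJ' hS hC hT
  letI := A.metric
  obtain ⟨Z, hμ, hOm, hCl, hEx, hN, hPG, hH, hK⟩ := GX.sysD X (A.toCM om hJ' hS hC hT)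
  have hNul : Z.Y.Nul ≤ Z.Y.Ex :=
    Z.Y.Nul_le_Ex Z.Y.δ0_pos le_rfl (hH _ Z.Y.δ0_pos le_rfl) (hK _ Z.Y.δ0_pos le_rfl)
  have hFD : Z.Y.FD :=
    Z.Y.fd_of_compact Z.Y.δ0_pos le_rfl (hH _ Z.Y.δ0_pos le_rfl) (hK _ Z.Y.δ0_pos le_rfl)
  let f : Z.Om →ₗ[ℝ] DC.TwoForm SC.E4 X :=
    { toFun := fun b => A.back om (b : X → L2)
      map_add' := fun a b => A.back_add om _ _
      map_smul' := fun r a => A.back_smul om r _ }
  have hf : ∀ b : Z.Om, f b = A.back om (b : X → L2) := fun b => rfl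
  have hfs : ∀ b : Z.Om, Mfd.SmoothForm (X := X) (f b) := fun b =>
    A.smooth_back om hJ' hT hS hC ((hOm _).1 b.2)
  have hfc : ∀ b : Z.Om, Mfd.ClosedForm (X := X) (f b) ↔ b ∈ Z.Y.Cl := by
    intro b
    rw [A.closed_iff' om hJ' hT hS hC (hfs b), hf, A.cmp_back om hJ' hT, hCl]
  have hcl : ∀ b : Z.Om, Closed (f b) ↔ b ∈ Z.Y.Cl := fun b =>
    ⟨fun h => (hfc b).1 h.2, fun h => ⟨hfs b, (hfc b).2 h⟩⟩
  have hev : ∀ (b : Z.Om) x (u v : SC.E4), Mfd.omv (X := X) (f b) x u v =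
      ev ((b : X → L2) x) (A.Fr om x u) (A.Fr om x v) := fun b x u v => A.omv_back om _ x u v
  have hev' : ∀ (b : Z.Om) x (u v : V4), ev ((b : X → L2) x) u v =
      Mfd.omv (X := X) (f b) x (A.FrI om x u) (A.FrI om x v) := by
    intro b x u v
    rw [hev, A.Fr_FrI om hJ' hT, A.Fr_FrI om hJ' hT]
  have htm : ∀ b : Z.Om, DC.Tames (f b) J ↔
      ∀ x v, v ≠ 0 → 0 < ev ((b : X → L2) x) v (app J0 v) := by
    intro b
    constructor
    · intro h x v hv
      rw [hev', A.FrI_J om hJ' hT]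
      refine h x _ fun h0 => hv ?_
      have h1 := A.Fr_FrI om hJ' hT x v
      have h0' : A.FrI om x v = 0 := h0
      rw [h0', map_zero] at h1
      exact h1.symm
    · intro h
      have key : ∀ x (v : SC.E4), v ≠ 0 →
          0 < Mfd.omv (X := X) (f b) x v (Mfd.Jat J x v) := by
        intro x v hv
        rw [hev, A.Fr_J om hJ' hT]
        refine h x _ fun h0 => hv ?_
        have h1 := A.FrI_Fr om hJ' hT x v
        rw [h0, map_zero] at h1
        exact h1.symm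
      exact fun x v hv => key x v hv
  have hpull : ∀ (b : Z.Om) (r : ℝ), (∀ x (u v : SC.E4), Mfd.omv (X := X) (f b) x
      (Mfd.Jat J x u) (Mfd.Jat J x v) = r * Mfd.omv (X := X) (f b) x u v) ↔
      ∀ x, pull J0 ((b : X → L2) x) = r • (b : X → L2) x := by
    intro b r
    constructor
    · intro h x
      apply ext_ev
      intro u v
      rw [ev_pull, ev_smul, hev', hev', A.FrI_J om hJ' hT, A.FrI_J om hJ' hT, h]
    · intro h x u v
      rw [hev, hev, A.Fr_J om hJ' hT, A.Fr_J om hJ' hT, ← ev_pull, h, ev_smul]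
  have hsym : ∀ b : Z.Om, b ∈ Z.Y.Cl → DC.Tames (f b) J → DC.Symplectic (f b) := by
    intro b h1 h2
    refine ⟨hfs b, (hfc b).2 h1, fun x v hv => ?_⟩
    by_contra hne
    have := h2 x v hne
    rw [hv] at this
    exact lt_irrefl _ this
  have hsur : ∀ y : DC.TwoForm SC.E4 X, DC.SmoothForm y → ∃ x, f x = y := fun y hy =>
    ⟨⟨A.cmp om y, (hOm _).2 ((A.smooth_iff om hJ' hT hS hC y).1 hy)⟩, A.back_cmp om hJ' hT y⟩
  have hTm : ∀ x, (mcd J I).Tm (f x) ↔ Z.cd.Tm x := fun b =>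
    ⟨fun h => ⟨(hfc b).1 h.1.closed, (htm b).1 h.2⟩,
      fun h => ⟨hsym b h.1 ((htm b).2 h.2), (htm b).2 h.2⟩⟩
  have hCp : ∀ x, (mcd J I).Cp (f x) ↔ Z.cd.Cp x := by
    intro b
    constructor
    · intro h
      refine ⟨(hfc b).1 h.1.closed, fun x => ⟨?_, (htm b).1 h.2.tames x⟩⟩
      have h1 := (hpull b 1).1 (fun x u v => by rw [one_mul]; exact h.2.invariant x u v) x
      rwa [one_smul] at h1
    · intro h
      have h1 := (htm b).2 fun x => (h.2 x).2
      refine ⟨hsym b h.1 h1, h1, fun x u v => ?_⟩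
      have h2 := (hpull b 1).2 (fun x => by rw [one_smul]; exact (h.2 x).1) x u v
      rwa [one_mul] at h2
  have hAn : ∀ x, (mcd J I).An (f x) ↔ Z.cd.An x := by
    intro b
    constructor
    · intro h
      refine ⟨(hcl b).1 h.1, fun x => ?_⟩
      have h1 := (hpull b (-1)).1 (fun x u v => by rw [neg_one_mul]; exact h.2 x u v) x
      rwa [neg_one_smul] at h1
    · intro h
      refine ⟨(hcl b).2 h.1, fun x u v => ?_⟩
      have h2 := (hpull b (-1)).2 (fun x => by rw [neg_one_smul]; exact h.2 x) x u v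
      rwa [neg_one_mul] at h2
  have hExx : ∀ x, (mcd J I).Ex (f x) ↔ Z.cd.Ex x := by
    intro b
    constructor
    · intro h
      have h1 := A.cmp_mem_Ex om hJ' hT hS hC (th := f b) h (hfs b)
      exact (hEx b).2 ⟨_, h1, A.cmp_back om hJ' hT _⟩
    · intro h
      obtain ⟨e, he, hee⟩ := (hEx b).1 h
      have h1 := A.isExact_back om hJ' hT hS hC (e : X → L2) e.2 he
      rw [hee] at h1
      exact h1
  have hIf : ∀ a b, I (f a) (f b) = Z.Y.pr a b := by
    intro a b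
    have h5 : I (f a) (f b) = A.II om hJ' hS hC hT (f a) (f b) := hI.unique hII (hfs a) (hfs b)
    rw [h5]
    unfold Mfd.FinAtlas.II
    rw [hf, hf, A.cmp_back om hJ' hT, A.cmp_back om hJ' hT, ← hμ]
    exact (Z.h586_inner a b).symm
  refine ⟨?_, fun e c he he' hc => ?_, fun w σ hw hσ => ?_⟩
  · obtain ⟨τ, hτ⟩ : ∃ x, f x = om := hsur om hS
    suffices h : (mcd J I).Thm (f τ) by rwa [hτ] at h
    exact CD.Thm.map (D' := Z.cd) f hcl hTm hCp hAn hExx hIf (fun y hy => hsur y hy.1)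
      (fun y hy => ⟨hy.1.smooth, hy.1.closed⟩) (fun y hy => ⟨hy.1.smooth, hy.1.closed⟩)
      (fun y hy => hy.1) (GX.CM.thm_of_sys _ Z hμ hOm hCl hEx hN hPG hFD hNul τ
        ((hTm τ).1 (by rw [hτ]; exact hom)))
  · obtain ⟨a, ha⟩ := hsur e he
    obtain ⟨b, hb⟩ := hsur c hc.1
    rw [← ha] at he'
    rw [← hb] at hc
    rw [← ha, ← hb, hIf]
    exact Z.Y.stokes a ((hExx a).1 he') b ((hcl b).1 hc)
  · obtain ⟨a, ha⟩ := hsur w hw.1.smooth
    obtain ⟨b, hb⟩ := hsur σ hσ.1.smooth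
    rw [← ha] at hw
    rw [← hb] at hσ
    rw [← ha, ← hb, hIf, Z.Y.pr_symm]
    exact GX.CM.pr_cp_tm _ Z hμ hOm a b ((hCp a).1 hw) ((hTm b).1 hσ)

open CV.H4 in
theorem thm.{u} (X : Type u) [TopologicalSpace X] [ChartedSpace SC.E4 X] [IsManifold (𝓡 4) ∞ X]
    [CompactSpace X] [T2Space X] [ConnectedSpace X] (J : DC.EndField SC.E4 X)
    (hJ : DC.AlmostComplex J) (om : DC.TwoForm SC.E4 X) (hom : Tamed J om)
    (I : DC.TwoForm SC.E4 X → DC.TwoForm SC.E4 X → ℝ) (hI : SC.IsIntegral J I) :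
    (mcd J I).Thm om := by
  have hs : Small.{0} X := small_of_compact (E := SC.E4) X
  letI : TopologicalSpace (Shrink.{0} X) :=
    TopologicalSpace.induced (equivShrink X).symm inferInstance
  let φ : Shrink.{0} X ≃ₜ X := (equivShrink X).symm.toHomeomorphOfIsInducing ⟨rfl⟩
  letI : ChartedSpace SC.E4 (Shrink.{0} X) := cs φ
  haveI : IsManifold (𝓡 4) ∞ (Shrink.{0} X) := cs_isManifold φ
  haveI : CompactSpace (Shrink.{0} X) := φ.symm.compactSpace
  haveI : T2Space (Shrink.{0} X) := φ.symm.t2Space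
  haveI : ConnectedSpace (Shrink.{0} X) := φ.symm.surjective.connectedSpace φ.symm.continuous
  have h0 := (thm0 (Shrink.{0} X) (tJ φ J) (almostComplex_tJ φ hJ) (tf φ om)
    ⟨symplectic_tf φ hom.1, tames_tf φ hom.2⟩ _ (isIntegral_tf φ hI)).1
  let f : DC.TwoForm SC.E4 (Shrink.{0} X) →ₗ[ℝ] DC.TwoForm SC.E4 X :=
    { toFun := bf φ
      map_add' := fun _ _ => rfl
      map_smul' := fun _ _ => rfl }
  have hf : ∀ b, f b = bf φ b := fun _ => rfl
  have closed_tf : ∀ {th : DC.TwoForm SC.E4 X}, DC.ClosedForm th → DC.ClosedForm (tf φ th) := by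
    intro th h
    rintro c ⟨c0, h0, rfl⟩
    rw [pull_tf]
    exact h c0 h0
  have hcl : ∀ b, Closed (f b) ↔ Closed b := fun b =>
    ⟨fun h => by
      have h1 : Closed (tf φ (bf φ b)) := ⟨smooth_tf φ h.1, closed_tf h.2⟩
      rwa [tf_bf] at h1, fun h => ⟨smooth_bf φ h.1, closed_bf φ h.2⟩⟩
  have h1 := CD.Thm.map (D := mcd J I)
    (D' := mcd (tJ φ J) (fun α β => I (bf φ α) (bf φ β))) f hcl
    (fun b => ⟨fun h => by
      have h1 : Tamed (tJ φ J) (tf φ (bf φ b)) := ⟨symplectic_tf φ h.1, tames_tf φ h.2⟩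
      rwa [tf_bf] at h1, fun h => ⟨symplectic_bf φ h.1, tames_bf φ h.2⟩⟩)
    (fun b => ⟨fun h => by
      have h1 : Compat (tJ φ J) (tf φ (bf φ b)) := ⟨symplectic_tf φ h.1, compatible_tf φ h.2⟩
      rwa [tf_bf] at h1, fun h => ⟨symplectic_bf φ h.1, compatible_bf φ h.2⟩⟩)
    (fun b => ⟨fun h => by
      have h1 : Anti (tJ φ J) (tf φ (bf φ b)) :=
        ⟨⟨smooth_tf φ h.1.1, closed_tf h.1.2⟩, fun y u v => h.2 (φ y) u v⟩
      rwa [tf_bf] at h1, fun h => ⟨(hcl b).2 h.1, fun x u v => by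
        have h1 := h.2 (φ.symm x) u v
        rw [show tJ φ J (φ.symm x) u = J x u from J_apply φ J x u,
          show tJ φ J (φ.symm x) v = J x v from J_apply φ J x v] at h1
        exact h1⟩⟩)
    (fun b => ⟨fun h => by
      have h1 := isExact_tf φ (th := bf φ b) h
      rwa [tf_bf] at h1, fun h => isExact_bf φ h⟩)
    (fun _ _ => rfl) (fun y _ => ⟨tf φ y, bf_tf φ y⟩) (fun y hy => ⟨hy.1.smooth, hy.1.closed⟩)
    (fun y hy => ⟨hy.1.smooth, hy.1.closed⟩) (fun y hy => hy.1) h0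
  rwa [hf, bf_tf] at h1

theorem isIntegral_iff {X : Type*} [TopologicalSpace X] [ChartedSpace SC.E4 X]
    (J : DC.EndField SC.E4 X) (I : DC.TwoForm SC.E4 X → DC.TwoForm SC.E4 X → ℝ) :
    Cls.IsIntegral volume (EuclideanSpace.basisFun (Fin 4) ℝ).toBasis J I ↔ SC.IsIntegral J I := by
  constructor
  · intro h
    refine ⟨h.add, fun e he K hK hKc α β hα hβ hs => ?_⟩
    rw [h.chart e he K hK hKc α β hα hβ hs]
    simp only [Cls.orient_eq, Cls.wedge_eq]
  · intro h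
    refine ⟨h.add, fun e he K hK hKc α β hα hβ hs => ?_⟩
    rw [h.chart e he K hK hKc α β hα hβ hs]
    simp only [Cls.orient_eq, Cls.wedge_eq]

end Vale.Agent.N204
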