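import Vale.Agent.N204.Mfd
import Mathlib.MeasureTheory.Integral.IntervalIntegral.Periodic
import Mathlib.Analysis.SpecialFunctions.Trigonometric.Deriv

set_option linter.all false

/-! P204, cones: the four-torus as a manifold, and an almost complex structure on it for which
the tamed cone is not the sum of the compatible cone and the anti-invariant classes. -/

open scoped Manifold ContDiff Topology
open Set MeasureTheory Filter

noncomputable section

namespace Vale.Agent.N204.Tor

open Vale.Agent.P204 Vale.Agent.P204.T4 Vale.Agent.P204.Mfd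
open Vale.Agent.P204.SC (E4)

/-- the torus -/
abbrev TT : Type := Fin 4 → UnitAddCircle

/-- the covering map -/
def pj (y : SC.E4) : TT := fun i => ((y i : ℝ) : UnitAddCircle)

theorem pj_add (y z : SC.E4) : pj (y + z) = pj y + pj z := by
  funext i
  simp [pj]

theorem pj_sub (y z : SC.E4) : pj (y - z) = pj y - pj z := by
  funext i
  simp [pj]

/-- parametrisations -/
def par (a : Fin 4 → ℝ) : OpenPartialHomeomorph SC.E4 TT :=
  (PiLp.homeomorph 2 (fun _ : Fin 4 => ℝ)).transOpenPartialHomeomorph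
    (OpenPartialHomeomorph.pi fun i => AddCircle.openPartialHomeomorphCoe 1 (a i))

theorem par_coe (a : Fin 4 → ℝ) : ⇑(par a) = pj := rfl

theorem mem_src (a : Fin 4 → ℝ) (y : SC.E4) :
    y ∈ (par a).source ↔ ∀ i, y i ∈ Ioo (a i) (a i + 1) := by
  simp [par, OpenPartialHomeomorph.pi]
  rfl

theorem self_mem (y : SC.E4) : y ∈ (par fun i => y i - 1 / 2).source := by
  rw [mem_src]
  intro i
  constructor <;> linarith

/-- a lift -/
def rep (x : TT) : SC.E4 := WithLp.toLp 2 fun i => (AddCircle.equivIco 1 0 (x i) : ℝ)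

theorem pj_rep (x : TT) : pj (rep x) = x := by
  funext i
  exact (AddCircle.equivIco 1 0).symm_apply_apply (x i)

/-- the atlas -/
@[reducible] def cs : ChartedSpace SC.E4 TT where
  atlas := {e | ∃ a, e = (par a).symm}
  chartAt x := (par fun i => rep x i - 1 / 2).symm
  mem_chart_source x := by
    have h := (par fun i => rep x i - 1 / 2).map_source (self_mem (rep x))
    rw [par_coe, pj_rep] at h
    exact h
  chart_mem_atlas x := ⟨_, rfl⟩

theorem loc (a : Fin 4 → ℝ) {y : SC.E4} (hy : pj y ∈ (par a).target) :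
    (fun z => (par a).symm (pj z)) =ᶠ[𝓝 y] fun z => z + ((par a).symm (pj y) - y) := by
  have h1 : (par a).symm (pj y) ∈ (par a).source := (par a).map_target hy
  have h2 : pj ((par a).symm (pj y)) = pj y := (par a).right_inv hy
  have h3 : ∀ᶠ z in 𝓝 y, z + ((par a).symm (pj y) - y) ∈ (par a).source := by
    have h4 : ContinuousAt (fun z : SC.E4 => z + ((par a).symm (pj y) - y)) y := by fun_prop
    refine h4.eventually ((par a).open_source.mem_nhds ?_)
    simpa using h1
  filter_upwards [h3] with z hz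
  have h5 := (par a).left_inv hz
  rw [par_coe, pj_add, pj_sub, h2, sub_self, add_zero] at h5
  exact h5

theorem fd_loc (a : Fin 4 → ℝ) {y : SC.E4} (hy : pj y ∈ (par a).target) :
    HasFDerivAt (fun z => (par a).symm (pj z)) (ContinuousLinearMap.id ℝ SC.E4) y :=
  ((hasFDerivAt_id y).add_const _).congr_of_eventuallyEq (loc a hy)

attribute [local instance] cs

theorem mfd : IsManifold (𝓡 4) ∞ TT := by
  refine isManifold_of_contDiffOn _ _ _ ?_
  rintro e e' ⟨a, rfl⟩ ⟨b, rfl⟩ y hy
  have hy' : pj y ∈ (par b).target := by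
    simp only [mfld_simps] at hy
    exact hy.2
  have h1 : ContDiffAt ℝ ∞ (fun z => (par b).symm (pj z)) y :=
    (contDiffAt_id.add contDiffAt_const).congr_of_eventuallyEq (loc b hy')
  exact h1.contDiffWithinAt

theorem pj_cont : Continuous pj :=
  continuous_pi fun i => (AddCircle.continuous_mk' 1).comp (by fun_prop)

theorem mfderiv_pj (y : SC.E4) :
    (mfderiv 𝓘(ℝ, SC.E4) 𝓘(ℝ, SC.E4) pj y : SC.E4 →L[ℝ] SC.E4) = ContinuousLinearMap.id ℝ SC.E4 := by
  refine HasMFDerivAt.mfderiv ⟨pj_cont.continuousAt, ?_⟩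
  have h := fd_loc _ (mem_chart_source SC.E4 (pj y))
  simp only [mfld_simps, hasFDerivWithinAt_univ]
  exact h.hasFDerivWithinAt

theorem mfderiv_chart (a : Fin 4 → ℝ) {x : TT} (hx : x ∈ (par a).target) :
    (mfderiv 𝓘(ℝ, SC.E4) 𝓘(ℝ, SC.E4) (par a).symm x : SC.E4 →L[ℝ] SC.E4) =
      ContinuousLinearMap.id ℝ SC.E4 := by
  refine HasMFDerivAt.mfderiv ⟨(par a).continuousAt_symm hx, ?_⟩
  have h1 : pj (chartAt SC.E4 x x) = x := (chartAt SC.E4 x).left_inv (mem_chart_source SC.E4 x)
  have h := fd_loc a (y := chartAt SC.E4 x x) (by rw [h1]; exact hx)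
  simp only [mfld_simps, hasFDerivWithinAt_univ]
  exact h.hasFDerivWithinAt

abbrev A2 := SC.E4 [⋀^Fin 2]→L[ℝ] ℝ
abbrev A1 := SC.E4 [⋀^Fin 1]→L[ℝ] ℝ

theorem pull2 (a : Fin 4 → ℝ) (om : TT → A2) :
    DC.pullForm (par a).symm.symm (om : DC.TwoForm SC.E4 TT) = fun y => om (pj y) := by
  funext y
  have h : (om (pj y)).compContinuousLinearMap (ContinuousLinearMap.id ℝ SC.E4) = om (pj y) := by
    ext m; rfl
  rw [← h, ← mfderiv_pj y]
  rfl

theorem pull1 (a : Fin 4 → ℝ) (om : TT → A1) :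
    Cls.pullOne (par a).symm.symm (om : Cls.OneForm SC.E4 TT) = fun y => om (pj y) := by
  funext y
  have h : (om (pj y)).compContinuousLinearMap (ContinuousLinearMap.id ℝ SC.E4) = om (pj y) := by
    ext m; rfl
  rw [← h, ← mfderiv_pj y]
  rfl

theorem endRep_eq (a : Fin 4 → ℝ) (J : TT → SC.E4 →L[ℝ] SC.E4) {y : SC.E4}
    (hy : y ∈ (par a).source) : DC.endRep (par a).symm (J : DC.EndField SC.E4 TT) y = J (pj y) := by
  have h1 := mfderiv_chart a ((par a).map_source hy)
  have h2 := mfderiv_pj y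
  have h3 : ∀ A B : SC.E4 →L[ℝ] SC.E4, A = ContinuousLinearMap.id ℝ SC.E4 →
      B = ContinuousLinearMap.id ℝ SC.E4 → A.comp ((J (pj y)).comp B) = J (pj y) := by
    rintro _ _ rfl rfl; rfl
  exact h3 _ _ h1 h2

theorem smooth_iff (om : TT → A2) :
    DC.SmoothForm (om : DC.TwoForm SC.E4 TT) ↔ ContDiff ℝ ∞ fun y => om (pj y) := by
  constructor
  · intro h
    rw [contDiff_iff_contDiffAt]
    intro y
    have h1 := h _ ⟨fun i => y i - 1 / 2, rfl⟩
    rw [pull2] at h1
    exact h1.contDiffAt ((par _).open_source.mem_nhds (self_mem y))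
  · rintro h e ⟨a, rfl⟩
    rw [pull2]
    exact h.contDiffOn

theorem cont_of_lift {F : Type*} [TopologicalSpace F] {g : TT → F}
    (h : Continuous fun y => g (pj y)) : Continuous g := by
  rw [continuous_iff_continuousAt]
  intro x
  have hx := mem_chart_source SC.E4 x
  have h1 : ContinuousAt (fun z => g (pj (chartAt SC.E4 x z))) x :=
    h.continuousAt.comp ((chartAt SC.E4 x).continuousAt hx)
  refine h1.congr ?_
  filter_upwards [(chartAt SC.E4 x).open_source.mem_nhds hx] with z hz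
  exact congrArg g ((chartAt SC.E4 x).left_inv hz)

theorem integral_chart (a : Fin 4 → ℝ) {g : TT → ℝ} (hg : Continuous g) :
    ∫ y in (par a).source, g (pj y) = ∫ x, g x := by
  have h1 : MeasurePreserving (fun (y : Fin 4 → ℝ) i => ((y i : ℝ) : UnitAddCircle))
      (Measure.pi fun i => volume.restrict (Ioc (a i) (a i + 1))) (volume : Measure TT) :=
    measurePreserving_pi _ _ fun i => UnitAddCircle.measurePreserving_mk (a i)
  have h2 : (Measure.pi fun i => volume.restrict (Ioc (a i) (a i + 1))) =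
      (volume : Measure (Fin 4 → ℝ)).restrict (univ.pi fun i => Ioo (a i) (a i + 1)) := by
    rw [← Measure.restrict_pi_pi]
    refine Measure.restrict_congr_set ?_
    exact (Measure.univ_pi_Ioc_ae_eq_Icc).trans (Measure.univ_pi_Ioo_ae_eq_Icc).symm
  rw [h2] at h1
  have h3 := (PiLp.volume_preserving_ofLp (Fin 4)).restrict_preimage
    (s := univ.pi fun i => Ioo (a i) (a i + 1)) (MeasurableSet.univ_pi fun i => measurableSet_Ioo)
  have h4 := h1.comp h3
  have h5 : (par a).source = WithLp.ofLp ⁻¹' (univ.pi fun i => Ioo (a i) (a i + 1)) := by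
    ext y
    rw [mem_src]
    simp
  rw [h5, ← h4.map_eq, integral_map h4.measurable.aemeasurable hg.aestronglyMeasurable]
  rfl

/-- two-forms from components -/
def frm (u : TT → L2) : DC.TwoForm SC.E4 TT := fun x => (cE.symm (u x) : A2)

theorem cE_symm_apply (B : L2) (v w : SC.E4) : (cE.symm B : A2) ![v, w] = ev B v.ofLp w.ofLp := by
  refine (comp_apply2 (E := SC.E4) (F := V4) (toAlt B) (toE.symm : SC.E4 →L[ℝ] V4) v w).trans ?_
  rw [toAlt_apply]
  rfl

theorem ev_cE (B : A2) (v w : SC.E4) : B ![v, w] = ev (cE B) v.ofLp w.ofLp := by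
  rw [← cE_symm_apply, ContinuousLinearEquiv.symm_apply_apply]

theorem c1E_symm_apply (b : V4) (v : SC.E4) : (c1E.symm b : A1) ![v] = pr b v.ofLp := by
  refine (comp_apply1 (E := SC.E4) (F := V4) (toAlt1 b) (toE.symm : SC.E4 →L[ℝ] V4) v).trans ?_
  rw [toAlt1_apply]
  rfl

theorem a2_ext {A B : A2} (h : ∀ v w, A ![v, w] = B ![v, w]) : A = B := by
  ext m
  have : m = ![m 0, m 1] := by funext i; fin_cases i <;> rfl
  rw [this]; exact h _ _

theorem closed_const (B : L2) : Closed (frm fun _ => B) := by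
  refine ⟨(smooth_iff _).2 contDiff_const, ?_⟩
  rintro e ⟨a, rfl⟩ y _
  have h := pull2 a (fun _ => (cE.symm B : A2))
  erw [h]
  ext m
  rw [extDeriv_apply (differentiableAt_const _)]
  simp

/-- functions of the third coordinate -/
def lf {φ : ℝ → ℝ} (h : Function.Periodic φ 1) (x : TT) : ℝ := h.lift (x 2)

theorem lf_pj {φ : ℝ → ℝ} (h : Function.Periodic φ 1) (y : SC.E4) : lf h (pj y) = φ (y 2) := rfl

theorem lf_cont {φ : ℝ → ℝ} (h : Function.Periodic φ 1) (hφ : Continuous φ) :
    Continuous (lf h) := cont_of_lift (by simp only [lf_pj]; fun_prop)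

theorem exact_lf {φ ψ : ℝ → ℝ} (h : Function.Periodic φ 1) (h' : Function.Periodic ψ 1)
    (hφ : ContDiff ℝ ∞ φ) (hψ : ContDiff ℝ ∞ ψ) (hd : ∀ t, HasDerivAt φ (ψ t) t) (b : V4) :
    DC.SmoothForm (frm fun x => lf h' x • wd (eb 2) b) ∧
      Cls.IsExact (frm fun x => lf h' x • wd (eb 2) b) := by
  have hc : ContDiff ℝ ∞ fun y : SC.E4 => y 2 := by fun_prop
  refine ⟨(smooth_iff _).2 ?_, fun x => (lf h x • c1E.symm b : A1), ?_, ?_⟩
  · exact cE.symm.contDiff.comp ((hψ.comp hc).smul contDiff_const)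
  · rintro e ⟨a, rfl⟩
    have h1 := pull1 a (fun x => (lf h x • c1E.symm b : A1))
    erw [h1]
    exact ((hφ.comp hc).smul contDiff_const).contDiffOn
  · rintro e ⟨a, rfl⟩ y _
    have h1 := pull1 a (fun x => (lf h x • c1E.symm b : A1))
    have h2 := pull2 a (fun x => (cE.symm (lf h' x • wd (eb 2) b) : A2))
    erw [h1, h2]
    have h3 : DifferentiableAt ℝ (fun y : SC.E4 => (lf h (pj y) • c1E.symm b : A1)) y :=
      (((hφ.comp hc).smul contDiff_const).differentiable (by simp)) y
    have h4 : ∀ (r : ℝ) (v : SC.E4), fderiv ℝ (fun y : SC.E4 => φ (y 2) * r) y v =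
        ψ (y 2) * v 2 * r := by
      intro r v
      have h5 : HasFDerivAt (fun y : SC.E4 => y 2) (EuclideanSpace.proj (𝕜 := ℝ) (2 : Fin 4)) y :=
        (EuclideanSpace.proj (𝕜 := ℝ) (2 : Fin 4)).hasFDerivAt
      have h6 := ((hd (y 2)).comp_hasFDerivAt y h5).mul_const r
      have h7 : fderiv ℝ (fun y : SC.E4 => φ (y 2) * r) y = _ := h6.fderiv
      rw [h7]
      simp
      ring
    apply a2_ext
    intro v w
    rw [extDeriv_apply h3, Fin.sum_univ_two]
    have e0 : (0 : Fin 2).removeNth ![v, w] = ![w] := by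
      funext l; fin_cases l; rfl
    have e1 : (1 : Fin 2).removeNth ![v, w] = ![v] := by
      funext l; fin_cases l; rfl
    rw [e0, e1]
    simp only [ContinuousAlternatingMap.smul_apply, c1E_symm_apply, lf_pj, smul_eq_mul, h4,
      cE_symm_apply, ev_eq]
    simp [wd, eb, pr]
    ring

theorem per_sin : Function.Periodic (fun t : ℝ => Real.sin (2 * Real.pi * t)) 1 := fun t => by
  simp only [mul_add, mul_one, Real.sin_add_two_pi]

theorem per_cos : Function.Periodic (fun t : ℝ => -(2 * Real.pi)⁻¹ * Real.cos (2 * Real.pi * t)) 1 :=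
  fun t => by simp only [mul_add, mul_one, Real.cos_add_two_pi]

theorem per_cos2 : Function.Periodic (fun t : ℝ => Real.cos (2 * (2 * Real.pi * t))) 1 := fun t => by
  simp only [mul_add, mul_one]
  rw [two_mul (2 * Real.pi), ← add_assoc, Real.cos_add_two_pi, Real.cos_add_two_pi]

theorem per_sin2 : Function.Periodic
    (fun t : ℝ => (4 * Real.pi)⁻¹ * Real.sin (2 * (2 * Real.pi * t))) 1 := fun t => by
  simp only [mul_add, mul_one]
  rw [two_mul (2 * Real.pi), ← add_assoc, Real.sin_add_two_pi, Real.sin_add_two_pi]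

/-- `sin (2 π x₂)` -/
def sn : TT → ℝ := lf per_sin

/-- `cos (4 π x₂)` -/
def c2 : TT → ℝ := lf per_cos2

theorem exact_sn (b : V4) : DC.SmoothForm (frm fun x => sn x • wd (eb 2) b) ∧
    Cls.IsExact (frm fun x => sn x • wd (eb 2) b) := by
  refine exact_lf per_cos per_sin (by fun_prop) (by fun_prop) (fun t => ?_) b
  have h := (((hasDerivAt_id t).const_mul (2 * Real.pi)).cos).const_mul (-(2 * Real.pi)⁻¹)
  refine h.congr_deriv ?_
  have := Real.pi_pos
  simp only [id]
  field_simp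

theorem exact_c2 (b : V4) : DC.SmoothForm (frm fun x => c2 x • wd (eb 2) b) ∧
    Cls.IsExact (frm fun x => c2 x • wd (eb 2) b) := by
  refine exact_lf per_sin2 per_cos2 (by fun_prop) (by fun_prop) (fun t => ?_) b
  have h := ((((hasDerivAt_id t).const_mul (2 * Real.pi)).const_mul 2).sin).const_mul
    (4 * Real.pi)⁻¹
  refine h.congr_deriv ?_
  have := Real.pi_pos
  simp only [id]
  field_simp
  ring

theorem sn_sq (x : TT) : sn x ^ 2 = (1 - c2 x) / 2 := by
  rw [← pj_rep x]
  show Real.sin _ ^ 2 = (1 - Real.cos _) / 2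
  rw [Real.cos_two_mul, Real.sin_sq]
  ring

theorem sn_le (x : TT) : -1 ≤ sn x ∧ sn x ≤ 1 := by
  rw [← pj_rep x]
  exact ⟨Real.neg_one_le_sin _, Real.sin_le_one _⟩

/-- matrices as endomorphisms -/
def mE (P : M4) : SC.E4 →L[ℝ] SC.E4 :=
  (toE : V4 →L[ℝ] SC.E4).comp ((clm P).comp (toE.symm : SC.E4 →L[ℝ] V4))

theorem mE_apply (P : M4) (v : SC.E4) : (mE P v).ofLp = app P v.ofLp := rfl

/-- the nilpotent perturbation -/
def N0 : M4 := ![![0, 0, 0, 0], ![0, 0, 0, 0], ![1, 0, 0, 0], ![0, -1, 0, 0]]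

/-- the almost complex structure -/
def JE (x : TT) : SC.E4 →L[ℝ] SC.E4 := mE J0 + (sn x / 4) • mE N0

theorem JE_apply (x : TT) (v : SC.E4) : (JE x v).ofLp =
    ![-v 1, v 0, -v 3 + sn x / 4 * v 0, v 2 - sn x / 4 * v 1] := by
  funext i
  have h : (JE x v).ofLp i = app J0 v.ofLp i + sn x / 4 * app N0 v.ofLp i := rfl
  rw [h, app_J0, app_eq]
  fin_cases i <;> simp [N0]
  ring

theorem ac : DC.AlmostComplex (JE : DC.EndField SC.E4 TT) := by
  refine ⟨?_, fun x v => ?_⟩
  · rintro e ⟨a, rfl⟩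
    have h1 : ContDiff ℝ ∞ fun y : SC.E4 => JE (pj y) := by
      have h2 : ContDiff ℝ ∞ fun y : SC.E4 => Real.sin (2 * Real.pi * y 2) / 4 := by fun_prop
      exact contDiff_const.add (h2.smul contDiff_const)
    exact h1.contDiffOn.congr fun y hy => endRep_eq a JE hy
  · have key : ∀ v : SC.E4, JE x (JE x v) = -v := by
      intro v
      apply WithLp.ofLp_injective
      rw [JE_apply, JE_apply]
      funext i
      fin_cases i <;> simp
      ring
    exact key v

/-- the taming forms -/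
def tau (t : ℝ) : L2 := ![1, t, 0, 0, -t, 1]

theorem tamed (t : ℝ) (ht : -2 ≤ t) (ht' : t ≤ 2) :
    Tamed (JE : DC.EndField SC.E4 TT) (frm fun _ => tau t) := by
  have key : ∀ x (v : SC.E4), v ≠ 0 → 0 < (cE.symm (tau t) : A2) ![v, JE x v] := by
    intro x v hv
    rw [cE_symm_apply, JE_apply, ev_eq]
    have h0 : 0 < v 0 ^ 2 + v 1 ^ 2 + v 2 ^ 2 + v 3 ^ 2 := by
      by_contra hle
      apply hv
      have a0 : v 0 = 0 := by nlinarith [sq_nonneg (v 0), sq_nonneg (v 1), sq_nonneg (v 2), sq_nonneg (v 3)]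
      have a1 : v 1 = 0 := by nlinarith [sq_nonneg (v 0), sq_nonneg (v 1), sq_nonneg (v 2), sq_nonneg (v 3)]
      have a2 : v 2 = 0 := by nlinarith [sq_nonneg (v 0), sq_nonneg (v 1), sq_nonneg (v 2), sq_nonneg (v 3)]
      have a3 : v 3 = 0 := by nlinarith [sq_nonneg (v 0), sq_nonneg (v 1), sq_nonneg (v 2), sq_nonneg (v 3)]
      ext i
      fin_cases i
      exacts [a0, a1, a2, a3]
    obtain ⟨s1, s2⟩ := sn_le x
    simp [tau]
    set s := sn x
    have h1 : -2 ≤ t * s := by nlinarith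
    have h2 : 0 ≤ (2 + t * s) * (v 0 ^ 2 + v 1 ^ 2) := by
      apply mul_nonneg <;> nlinarith [sq_nonneg (v 0), sq_nonneg (v 1)]
    have h3 := mul_nonneg (sub_nonneg.2 s2) (sq_nonneg (v 1 + v 2))
    have h4 := mul_nonneg (sub_nonneg.2 s1) (sq_nonneg (v 1 - v 2))
    have h5 := mul_nonneg (sub_nonneg.2 s2) (sq_nonneg (v 0 + v 3))
    have h6 := mul_nonneg (sub_nonneg.2 s1) (sq_nonneg (v 0 - v 3))
    nlinarith [sq_nonneg (v 2), sq_nonneg (v 3)]
  refine ⟨⟨(closed_const _).1, (closed_const _).2, fun x v hv => ?_⟩, fun x v hv => key x v hv⟩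
  by_contra hne
  have h1 := key x v hne
  have h2 : (cE.symm (tau t) : A2) ![v, JE x v] = 0 := hv _
  rw [h2] at h1
  exact lt_irrefl _ h1

/-- components -/
def cp (α : DC.TwoForm SC.E4 TT) (x : TT) : L2 := cE (α x : A2)

theorem cp_frm (u : TT → L2) : cp (frm u) = u := funext fun x => cE.apply_symm_apply (u x)

theorem cp_cont {α : DC.TwoForm SC.E4 TT} (h : DC.SmoothForm α) : Continuous (cp α) :=
  cont_of_lift (g := cp α) (cE.continuous.comp ((smooth_iff α).1 h).continuous)

theorem Q_cont {u v : TT → L2} (hu : Continuous u) (hv : Continuous v) :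
    Continuous fun x => Q (u x) (v x) := by
  unfold Q
  fun_prop

theorem intg {g : TT → ℝ} (hg : Continuous g) : Integrable g :=
  hg.integrable_of_hasCompactSupport (HasCompactSupport.of_compactSpace g)

/-- the integral -/
def I0 (α β : DC.TwoForm SC.E4 TT) : ℝ := ∫ x, Q (cp α x) (cp β x)

theorem orient_JE (x : TT) : SC.orient (JE x) = 1 := by
  unfold SC.orient
  rw [if_pos]
  refine ⟨SC.ei 0, SC.ei 2, ?_⟩
  rw [JE_apply, JE_apply, ← GX.det4_eq_det]
  simp [det4, mn, SC.ei]

theorem I0_add {α α' β : DC.TwoForm SC.E4 TT} (hα : DC.SmoothForm α) (hα' : DC.SmoothForm α')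
    (hβ : DC.SmoothForm β) : I0 (α + α') β = I0 α β + I0 α' β := by
  unfold I0
  rw [← integral_add (intg (Q_cont (cp_cont hα) (cp_cont hβ)))
    (intg (Q_cont (cp_cont hα') (cp_cont hβ)))]
  congr 1
  funext x
  have h : cp (α + α') x = cp α x + cp α' x := cE.map_add _ _
  rw [h, Q_add_left]

theorem isIntegral : SC.IsIntegral (JE : DC.EndField SC.E4 TT) I0 := by
  refine ⟨fun α α' β => I0_add, ?_⟩
  rintro e ⟨a, rfl⟩ K _ _ α β hα hβ _
  unfold I0
  rw [← integral_chart a (Q_cont (cp_cont hα) (cp_cont hβ))]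
  refine setIntegral_congr_fun (par a).open_source.measurableSet fun y hy => ?_
  have h1 := pull2 a α
  have h2 := pull2 a β
  have h3 := endRep_eq a JE hy
  have h4 : ∀ (j : SC.E4 →L[ℝ] SC.E4) (A B : A2), j = JE (pj y) → A = α (pj y) → B = β (pj y) →
      Q (cp α (pj y)) (cp β (pj y)) = SC.orient j * SC.wedge A B := by
    rintro _ _ _ rfl rfl rfl
    rw [orient_JE, one_mul]
    exact (H1.wedge_eq _ _).symm
  exact h4 _ _ _ h3 (congrFun h1 y) (congrFun h2 y)

theorem not_formula : ¬ ∃ w α, Compat (JE : DC.EndField SC.E4 TT) w ∧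
    Anti (JE : DC.EndField SC.E4 TT) α ∧ Cls.IsExact (w + α - frm fun _ => tau 2) := by
  rintro ⟨w, α, hw, hα, he⟩
  haveI := mfd
  have hτ := tamed 2 (by norm_num) le_rfl
  have hσ := tamed (-2) le_rfl (by norm_num)
  obtain ⟨-, stokes, hpos⟩ := thm0 TT JE ac _ hτ I0 isIntegral
  have hA := cp_cont hα.1.1
  -- the components of `α`
  have hc : ∀ x, cp α x 5 = 0 ∧ cp α x 0 = sn x / 4 * cp α x 4 ∧ cp α x 1 = -cp α x 4 := by
    intro x
    have key : ∀ u v : SC.E4, ev (cp α x) (JE x u).ofLp (JE x v).ofLp =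
        -ev (cp α x) u.ofLp v.ofLp := by
      intro u v
      have h1 := hα.2 x u v
      exact ((ev_cE (α x) (JE x u) (JE x v)).symm.trans h1).trans
        (congrArg Neg.neg (ev_cE (α x) u v))
    have h1 := key (SC.ei 2) (SC.ei 3)
    have h2 := key (SC.ei 0) (SC.ei 2)
    have h3 := key (SC.ei 0) (SC.ei 1)
    rw [JE_apply, JE_apply, ev_eq, ev_eq] at h1 h2 h3
    simp [SC.ei] at h1 h2 h3
    have h5 : cp α x 5 = 0 := by linarith
    rw [h5] at h2 h3
    refine ⟨h5, ?_, by linarith⟩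
    linear_combination (1 / 2) * h3 - (sn x / 8) * h2
  have hsn : Continuous sn := lf_cont _ (by fun_prop)
  have hc2 : Continuous c2 := lf_cont _ (by fun_prop)
  have h4 : Continuous fun x => cp α x 4 := by fun_prop
  have s1 : ∫ x, sn x * cp α x 4 = 0 := by
    have h := stokes _ α (exact_sn (eb 0)).1 (exact_sn (eb 0)).2 hα.1
    unfold I0 at h
    rw [cp_frm] at h
    rw [← h]
    congr 1
    funext x
    simp [Q, wd, eb]
  have s2 : ∫ x, c2 x * cp α x 4 = 0 := by
    have h := stokes _ α (exact_c2 (eb 0)).1 (exact_c2 (eb 0)).2 hα.1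
    unfold I0 at h
    rw [cp_frm] at h
    rw [← h]
    congr 1
    funext x
    simp [Q, wd, eb]
  have s3 : ∫ x, (1 / 8 * cp α x 4 - 1 / 8 * (c2 x * cp α x 4)) = 0 := by
    have h := stokes _ α (exact_sn (eb 3)).1 (exact_sn (eb 3)).2 hα.1
    unfold I0 at h
    rw [cp_frm] at h
    rw [← h]
    congr 1
    funext x
    have h1 := sn_sq x
    simp [Q, wd, eb]
    rw [(hc x).2.1]
    linear_combination (-(cp α x 4) / 4) * h1
  rw [integral_sub (intg (by fun_prop)) (intg (by fun_prop)), integral_const_mul,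
    integral_const_mul, s2] at s3
  have s4 : I0 α (frm fun _ => tau (-2)) = 0 := by
    unfold I0
    rw [cp_frm]
    have h1 : (fun x => Q (cp α x) (tau (-2))) =
        fun x => 1 / 4 * (sn x * cp α x 4) + 4 * cp α x 4 := by
      funext x
      obtain ⟨a1, a2, a3⟩ := hc x
      simp [Q, tau]
      rw [a1, a2, a3]
      ring
    rw [h1, integral_add (intg (by fun_prop)) (intg (by fun_prop)), integral_const_mul,
      integral_const_mul, s1]
    linarith
  have s5 : I0 (frm fun _ => tau 2) (frm fun _ => tau (-2)) = -6 := by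
    unfold I0
    rw [cp_frm, cp_frm]
    simp [Q, tau, Measure.real, volume_pi, Measure.pi_univ]
    norm_num
  have hs : DC.SmoothForm (w + α - frm fun _ => tau 2) := by
    have a1 := (smooth_iff w).1 hw.1.smooth
    have a2 := (smooth_iff α).1 hα.1.1
    have a3 := (smooth_iff _).1 hτ.1.smooth
    exact (smooth_iff _).2 ((a1.add a2).sub a3)
  have s6 := stokes _ _ hs he ⟨hσ.1.smooth, hσ.1.closed⟩
  have s7 := I0_add hs hτ.1.smooth hσ.1.smooth
  rw [sub_add_cancel, I0_add hw.1.smooth hα.1.1 hσ.1.smooth, s4, s5, s6] at s7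
  have s8 := hpos w _ hw hσ
  linarith

end Vale.Agent.N204.Tor
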